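import Vale.Agent.P273SN.CR

/-!
# P273S, block N: the chart of the open stratum
-/

set_option linter.all false

noncomputable section

namespace Vale.Agent.P273SN

open Set Sum Filter Topology Vale.Agent.P273 H837 P273SZ

variable {L V E : Type} {m : ℕ} {h : (E × Bool) ⊕ L → V}

/-- The point of `N h` of a point of the base. -/
def beta (c : Coord h m) (b : Fin m → ℂ) : Quad h → OnePoint ℂ := cr h fun y => pt b (c.c y)

/-- The half-edge with the label `l` at the vertex `v`. -/
def yl (c : Coord h m) (v : V) : Fin 3 ⊕ Fin m → (E × Bool) ⊕ L :=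
  Sum.elim (fun i => (c.const v i).choose) fun j => (c.coord j).choose

/-- The vertex of a coordinate. -/
def vx (c : Coord h m) (j : Fin m) : V := h (c.coord j).choose

theorem c_yl (c : Coord h m) (v : V) (l : Fin 3 ⊕ Fin m) : c.c (yl c v l) = l := by
  rcases l with i | j
  · exact (c.const v i).choose_spec.1.2
  · exact (c.coord j).choose_spec.1

theorem h_yl (c : Coord h m) (v : V) (i : Fin 3) : h (yl c v (inl i)) = v :=
  (c.const v i).choose_spec.1.1

theorem yl_c (c : Coord h m) (y : (E × Bool) ⊕ L) : yl c (h y) (c.c y) = y := by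
  rcases hy : c.c y with i | j
  · exact ((c.const (h y) i).choose_spec.2 y ⟨rfl, hy⟩).symm
  · exact ((c.coord j).choose_spec.2 y hy).symm

theorem vx_eq (c : Coord h m) {y : (E × Bool) ⊕ L} {j : Fin m} (hy : c.c y = inr j) :
    vx c j = h y := congrArg h ((c.coord j).choose_spec.2 y hy).symm

theorem c_inj (c : Coord h m) {y y' : (E × Bool) ⊕ L} (h1 : h y = h y') (h2 : c.c y = c.c y') :
    y = y' := by rw [← yl_c c y, h1, h2, yl_c]

/-- The labels of a quadruple. -/
def lab (c : Coord h m) (q : Quad h) (i : Fin 4) : Fin 3 ⊕ Fin m := c.c (q.1 i)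

theorem lab_inj (c : Coord h m) (q : Quad h) : Function.Injective (lab c q) := fun i j e =>
  q.2.1 (c_inj c ((q.2.2 i).trans (q.2.2 j).symm) e)

theorem lab_vx (c : Coord h m) (q : Quad h) {i i' : Fin 4} {j j' : Fin m} (e : lab c q i = inr j)
    (e' : lab c q i' = inr j') : vx c j = vx c j' := by
  rw [vx_eq c e, vx_eq c e', q.2.2 i, q.2.2 i']

/-- The quadruple with given labels. -/
def mkQ (c : Coord h m) (v : V) (l : Fin 4 → Fin 3 ⊕ Fin m) (hl : Function.Injective l)
    (hv : ∀ i j, l i = inr j → vx c j = v) : Quad h :=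
  ⟨fun i => yl c v (l i), fun i j e => hl (by rw [← c_yl c v (l i), ← c_yl c v (l j)]; exact congrArg _ e), by
    have : ∀ i, h (yl c v (l i)) = v := by
      intro i
      rcases hi : l i with a | a
      · exact h_yl c v a
      · exact hv i a hi
    intro i
    rw [this, this]⟩

theorem lab_mkQ (c : Coord h m) (v : V) (l : Fin 4 → Fin 3 ⊕ Fin m) (hl : Function.Injective l)
    (hv : ∀ i j, l i = inr j → vx c j = v) : lab c (mkQ c v l hl hv) = l :=
  funext fun i => c_yl c v (l i)

/-- The labels of the quadruple of the coordinate `j`, the point `k` being sent to infinity. -/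
def lq (k : Fin 3) (j : Fin m) : Fin 4 → Fin 3 ⊕ Fin m := ![inl (k + 1), inl (k + 2), inl k, inr j]

theorem lq_inj (k : Fin 3) (j : Fin m) : Function.Injective (lq k j) := by
  intro a b e
  fin_cases a <;> fin_cases b <;> fin_cases k <;> simp_all [lq]

theorem lq_inr {k : Fin 3} {j j' : Fin m} {i : Fin 4} (e : lq k j i = inr j') : j' = j := by
  fin_cases i <;> simp_all [lq]

/-- The quadruple of the coordinate `j`. -/
def qd (c : Coord h m) (k : Fin 3) (j : Fin m) : Quad h :=
  mkQ c (vx c j) (lq k j) (lq_inj k j) fun _ _ e => by rw [lq_inr e]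

theorem lab_qd (c : Coord h m) (k : Fin 3) (j : Fin m) : lab c (qd c k j) = lq k j :=
  lab_mkQ ..

/-- The three fixed points. -/
def p3 (i : Fin 3) : ℂ × ℂ := ![(0, 1), (1, 1), (1, 0)] i

theorem lft_pt_inl (b : Fin m → ℂ) (i : Fin 3) : lft (pt b (inl i)) = p3 i := by
  fin_cases i <;> rfl

theorem p3_ne (i : Fin 3) : p3 i ≠ 0 := by
  fin_cases i <;> simp [p3]

theorem br_p3 {i j : Fin 3} (hij : i ≠ j) : br (p3 i) (p3 j) ≠ 0 := by
  fin_cases i <;> fin_cases j <;> simp_all [p3, br]

theorem proj_p3 (b : Fin m → ℂ) (i : Fin 3) : proj (p3 i) = pt b (inl i) := by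
  rw [← lft_pt_inl b, proj_lft]

theorem an_lft_pt (l : Fin 3 ⊕ Fin m) (b : Fin m → ℂ) :
    AnalyticAt ℂ (fun b : Fin m → ℂ => lft (pt b l)) b := by
  rcases l with i | j
  · simp only [lft_pt_inl]
    exact analyticAt_const
  · exact ((ContinuousLinearMap.proj j : (Fin m → ℂ) →L[ℂ] ℂ).analyticAt b).prod analyticAt_const

theorem cont_pt (l : Fin 3 ⊕ Fin m) : Continuous fun b : Fin m → ℂ => pt b l := by
  rcases l with i | j
  · exact continuous_const
  · exact OnePoint.continuous_coe.comp (continuous_apply j)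

theorem isOpen_base [Finite E] [Finite L] (c : Coord h m) : IsOpen c.base := by
  have : c.base = ⋂ y, ⋂ y', ⋂ (_ : h y = h y' ∧ y ≠ y'), {b | pt b (c.c y) ≠ pt b (c.c y')} := by
    ext b
    simp only [mem_iInter, mem_setOf_eq, Coord.base]
    exact ⟨fun H y y' a e => a.2 (H y y' a.1 e),
      fun H y y' a e => by_contra fun n => H y y' ⟨a, n⟩ e⟩
  rw [this]
  exact isOpen_iInter_of_finite fun y => isOpen_iInter_of_finite fun y' =>
    isOpen_iInter_of_finite fun _ => isOpen_ne_fun (cont_pt _) (cont_pt _)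

theorem beta_eq (c : Coord h m) {b : Fin m → ℂ} (hb : b ∈ c.base) (q : Quad h) :
    beta c b q = proj (CR fun i => lft (pt b (lab c q i))) := cr_eq hb q

theorem an_beta [Finite E] [Finite L] (c : Coord h m) {b : Fin m → ℂ} (hb : b ∈ c.base) :
    An (beta c) b := by
  refine (an_proj (u := fun b q => CR fun i => lft (pt b (lab c q i)))
    (fun q => an_CR fun i => an_lft_pt _ _) fun q h0 => ?_).congr ?_
  · exact mul_ne_zero (br_lft_ne (conf_ne hb q (by decide)))
      (br_lft_ne (conf_ne hb q (by decide))) (congrArg Prod.snd h0)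
  · filter_upwards [(isOpen_base c).mem_nhds hb] with x hx
    exact funext fun q => (beta_eq c hx q).symm

theorem beta_qd (c : Coord h m) {b : Fin m → ℂ} (hb : b ∈ c.base) (j : Fin m) :
    beta c b (qd c 2 j) = (b j : ℂ) := by
  rw [beta_eq c hb, lab_qd, proj_eq_coe]
  simp [CR, lq, pt, br]

theorem beta_mem (c : Coord h m) {b : Fin m → ℂ} (hb : b ∈ c.base) : beta c b ∈ N h :=
  subset_closure ⟨_, hb, rfl⟩

/-- Every configuration is equivalent to a point of the base. -/
theorem exists_base (c : Coord h m) {w : (E × Bool) ⊕ L → OnePoint ℂ} (hw : w ∈ Conf h) :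
    ∃ b ∈ c.base, beta c b = cr h w := by
  let u : V → Fin 3 → ℂ × ℂ := fun v i => lft (w (yl c v (inl i)))
  have hu : ∀ v i j, i ≠ j → br (u v i) (u v j) ≠ 0 := fun v i j hij => br_lft_ne fun e => by
    have := congrArg c.c (hw _ _ ((h_yl c v i).trans (h_yl c v j).symm) e)
    rw [c_yl, c_yl] at this
    exact hij (inl.inj this)
  let A : V → Matrix (Fin 2) (Fin 2) ℂ := fun v => T3 (u v 0) (u v 1) (u v 2)
  have hA : ∀ v, (A v).det ≠ 0 := fun v =>
    det_T3 (hu v 1 2 (by decide)) (hu v 1 0 (by decide)) (hu v 0 2 (by decide))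
  let b : Fin m → ℂ := fun j => toC (mob (A (vx c j)) (w (c.coord j).choose))
  have key : ∀ y, pt b (c.c y) = mob (A (h y)) (w y) := by
    intro y
    have hy := yl_c c y
    rcases hc : c.c y with i | j
    · rw [hc] at hy
      have e : lft (w y) = u (h y) i := by simp only [u]; rw [hy]
      rw [mob, e, act_T3]
      fin_cases i
      · refine (proj_eq_coe.2 ⟨mul_ne_zero (hu _ 0 2 (by decide)) (hu _ 1 0 (by decide)), ?_⟩).symm
        simp [br_self]
      · refine (proj_eq_coe.2 ⟨mul_ne_zero (hu _ 1 2 (by decide)) (hu _ 1 0 (by decide)), ?_⟩).symm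
        simp [mul_comm]
      · refine (proj_eq_infty.2 ?_).symm
        simp [br_self]
    · rw [hc] at hy
      have e : (c.coord j).choose = y := hy
      change ((toC (mob (A (vx c j)) (w (c.coord j).choose)) : ℂ) : OnePoint ℂ) = _
      rw [e, vx_eq c hc]
      refine coe_toC (proj_ne.2 ?_)
      rw [act_T3]
      refine mul_ne_zero (br_lft_ne fun e' => ?_) (hu _ 1 0 (by decide))
      have := congrArg c.c (hw _ _ (h_yl c (h y) 2).symm e')
      rw [c_yl, hc] at this
      exact absurd this (by simp)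
  obtain ⟨h1, h2⟩ := cr_mob (w' := fun y => pt b (c.c y)) hw hA key
  exact ⟨b, h1, h2⟩

theorem N_eq (c : Coord h m) : N h = closure (beta c '' c.base) := by
  refine congrArg closure (Subset.antisymm ?_ ?_)
  · rintro _ ⟨w, hw, rfl⟩
    exact exists_base c hw
  · rintro _ ⟨b, hb, rfl⟩
    exact ⟨_, hb, rfl⟩

theorem N_eq' [Finite E] [Finite L] (c : Coord h m) {G : Set (Fin m → ℂ)} (h1 : G ⊆ c.base)
    (h2 : c.base ⊆ closure G) : N h = closure (beta c '' G) := by
  rw [N_eq c]
  refine Subset.antisymm (closure_minimal ?_ isClosed_closure) (closure_mono (image_mono h1))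
  rintro _ ⟨b, hb, rfl⟩
  exact mem_closure_image (an_beta c hb).cont (h2 hb)

/-- **The chart of the open stratum.** -/
theorem base_chart [Finite E] [Finite L] (c : Coord h m) (hne : c.base.Nonempty) :
    ∃ e : OpenPartialHomeomorph (N h) (Fin m → ℂ), HolCh e ∧ e.target = c.base ∧
      ∀ b ∈ c.base, (e.symm b).1 = beta c b :=
  exists_chart (isOpen_base c) hne (fun _ hb => an_beta c hb) (N_eq c) (qd c 2) id
    (fun b hb j => by rw [beta_qd c hb]; exact OnePoint.coe_ne_infty _)
    (fun _ _ => analyticAt_id) fun b hb => funext fun j => by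
      change toC (beta c b (qd c 2 j)) = b j
      rw [beta_qd c hb, toC_coe]

instance {Y : Type} (h : Y → V) : CompactSpace (N h) :=
  isCompact_iff_compactSpace.1 isClosed_closure.isCompact

end Vale.Agent.P273SN

end
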