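import Vale.Agent.P273SN.Gen
import Vale.Agent.P273SZ.Defs

/-!
# P273S, block N: cross ratios in homogeneous coordinates, charts from parametrizations
-/

set_option linter.all false

noncomputable section

namespace Vale.Agent.P273SN

open Set Filter Topology Vale.Agent.P273 H837 P273SZ

/-- **Charts from parametrizations.** -/
theorem exists_chart {Q : Type} {m : ℕ} {N : Set (Q → OnePoint ℂ)} {V : Set (Fin m → ℂ)}
    {ψ : (Fin m → ℂ) → Q → OnePoint ℂ} (hV : IsOpen V) (hne : V.Nonempty)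
    (ha : ∀ ζ ∈ V, An ψ ζ) (hN : N = closure (ψ '' V)) {ι : Type} [Fintype ι] (qs : ι → Q)
    (G : (ι → ℂ) → Fin m → ℂ) (hf : ∀ ζ ∈ V, ∀ i, ψ ζ (qs i) ≠ OnePoint.infty)
    (hG : ∀ ζ ∈ V, AnalyticAt ℂ G fun i => toC (ψ ζ (qs i)))
    (hl : ∀ ζ ∈ V, G (fun i => toC (ψ ζ (qs i))) = ζ) :
    ∃ e : OpenPartialHomeomorph N (Fin m → ℂ), HolCh e ∧ e.target = V ∧
      ∀ ζ ∈ V, (e.symm ζ).1 = ψ ζ := by
  let τ : (Q → OnePoint ℂ) → ι → ℂ := fun a i => toC (a (qs i))
  let U₀ : Set (Q → OnePoint ℂ) := {a | ∀ i, a (qs i) ≠ OnePoint.infty}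
  have h0 : IsOpen U₀ := by
    have : U₀ = ⋂ i, (fun a : Q → OnePoint ℂ => a (qs i)) ⁻¹' {z | z ≠ OnePoint.infty} := by
      ext a; simp [U₀]
    rw [this]
    exact isOpen_iInter_of_finite fun i => isOpen_fin.preimage (continuous_apply _)
  have h1 : ContinuousOn τ U₀ := fun a h => (continuousAt_pi.2 fun i =>
    (toC_cont (h i)).comp (f := fun a : Q → OnePoint ℂ => a (qs i))
      (continuous_apply _).continuousAt).continuousWithinAt
  have H : ChD (ψ '' V) (U₀ ∩ τ ⁻¹' {t | AnalyticAt ℂ G t}) V ψ fun a => G (τ a) := by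
    refine ⟨h1.isOpen_inter_preimage h0 (isOpen_analyticAt ℂ G), hV, ha,
      fun ζ h => subset_closure ⟨ζ, h, rfl⟩, fun ζ h => ⟨hf ζ h, hG ζ h⟩, fun a h => ?_,
      fun φ ζ h hφ => ?_, hl, ?_⟩
    · have h2 : AnalyticAt ℂ G (τ a) := h.2
      exact (h2.continuousAt.comp (h1.continuousAt (h0.mem_nhds h.1))).continuousWithinAt
    · have h2 : AnalyticAt ℂ G (τ (φ ζ)) := h.2
      exact h2.comp (f := fun x => τ (φ x)) (analyticAt_pi_iff.2 fun i => hφ.an _ (h.1 i))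
    · rintro _ ⟨ζ, h, rfl⟩ - -
      exact congrArg ψ (hl ζ h)
  obtain ⟨ζ₀, h₀⟩ := hne
  have hn : ψ ζ₀ ∈ N := by rw [hN]; exact subset_closure ⟨ζ₀, h₀, rfl⟩
  exact ⟨H.ch hN ⟨_, hn⟩, H.ch_hol _ _, rfl, fun ζ h => H.ch_symm _ _ h⟩

/-- The cross ratio in homogeneous coordinates. -/
def CR (u : Fin 4 → ℂ × ℂ) : ℂ × ℂ :=
  (br (u 3) (u 0) * br (u 1) (u 2), br (u 3) (u 2) * br (u 1) (u 0))

theorem df_eq (a b : OnePoint ℂ) : df a b = br (lft a) (lft b) := by
  induction a using OnePoint.rec <;> induction b using OnePoint.rec <;> simp [df, br]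

theorem br_comm (u v : ℂ × ℂ) : br u v = -br v u := by unfold br; ring

theorem br_zero_comm {u v : ℂ × ℂ} (h : br u v = 0) : br v u = 0 := by
  rw [br_comm, h, neg_zero]

theorem br_trans {u v w : ℂ × ℂ} (hu : u ≠ 0) (h1 : br u v = 0) (h2 : br u w = 0) :
    br v w = 0 := by
  unfold br at *
  by_cases h : u.2 = 0
  · have h3 := fst_ne_zero hu h
    refine (mul_eq_zero.1 (?_ : u.1 * _ = 0)).resolve_left h3
    linear_combination v.1 * h2 - w.1 * h1
  · refine (mul_eq_zero.1 (?_ : u.2 * _ = 0)).resolve_left h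
    linear_combination v.2 * h2 - w.2 * h1

theorem exists_smul {u v : ℂ × ℂ} (hu : u ≠ 0) (hv : v ≠ 0) (h : proj u = proj v) :
    ∃ s : ℂ, s ≠ 0 ∧ u = (s * v.1, s * v.2) := by
  have h1 := (proj_eq_iff hu hv).1 h
  unfold br at h1
  have key : ∀ s : ℂ, u = (s * v.1, s * v.2) → s ≠ 0 := by
    rintro s e rfl
    exact hu (by rw [e]; simp)
  by_cases h2 : v.2 = 0
  · have h3 := fst_ne_zero hv h2
    have e : u = (u.1 / v.1 * v.1, u.1 / v.1 * v.2) := by
      refine Prod.ext (div_mul_cancel₀ _ h3).symm ?_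
      rw [h2, mul_zero] at h1 ⊢
      have : u.2 * v.1 = 0 := by linear_combination -h1
      exact (mul_eq_zero.1 this).resolve_right h3
    exact ⟨_, key _ e, e⟩
  · have e : u = (u.2 / v.2 * v.1, u.2 / v.2 * v.2) := by
      refine Prod.ext ?_ (div_mul_cancel₀ _ h2).symm
      change u.1 = u.2 / v.2 * v.1
      field_simp
      linear_combination h1
    exact ⟨_, key _ e, e⟩

/-- The cross ratio is a projective invariant. -/
theorem CR_congr {u u' : Fin 4 → ℂ × ℂ} (hu : ∀ i, u i ≠ 0) (hu' : ∀ i, u' i ≠ 0)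
    {M : Matrix (Fin 2) (Fin 2) ℂ} (hM : M.det ≠ 0)
    (h : ∀ i, proj (u' i) = mob M (proj (u i))) : proj (CR u') = proj (CR u) := by
  have h1 : ∀ i, ∃ s : ℂ, s ≠ 0 ∧ u' i = (s * (act M (u i)).1, s * (act M (u i)).2) := fun i =>
    exists_smul (hu' i) (act_ne hM (hu i)) (by rw [h, mob_proj hM (hu i)])
  choose s hs e using h1
  have h2 : ∀ i j, br (u' i) (u' j) = s i * s j * M.det * br (u i) (u j) := by
    intro i j
    rw [e i, e j, mul_assoc, ← br_act]
    unfold br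
    ring
  have h3 : s 0 * s 1 * s 2 * s 3 * M.det ^ 2 ≠ 0 :=
    mul_ne_zero (mul_ne_zero (mul_ne_zero (mul_ne_zero (hs 0) (hs 1)) (hs 2)) (hs 3))
      (pow_ne_zero _ hM)
  rw [← proj_smul h3 (CR u)]
  congr 1
  unfold CR
  simp only [h2]
  refine Prod.ext ?_ ?_ <;> simp only <;> ring

theorem CR_ne {u : Fin 4 → ℂ × ℂ} (hu : ∀ i, u i ≠ 0)
    (h : ∀ i j k, i ≠ j → i ≠ k → j ≠ k → br (u i) (u j) = 0 → br (u i) (u k) = 0 →
      br (u j) (u k) = 0 → False) : CR u ≠ 0 := by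
  have h' : ∀ i j k, i ≠ j → i ≠ k → j ≠ k → br (u i) (u j) = 0 → br (u i) (u k) = 0 → False :=
    fun i j k a b c d e => h i j k a b c d e (br_trans (hu i) d e)
  intro h0
  have h1 : br (u 3) (u 0) * br (u 1) (u 2) = 0 := congrArg Prod.fst h0
  have h2 : br (u 3) (u 2) * br (u 1) (u 0) = 0 := congrArg Prod.snd h0
  rcases mul_eq_zero.1 h1 with a | a <;> rcases mul_eq_zero.1 h2 with b | b
  · exact h' 3 0 2 (by decide) (by decide) (by decide) a b
  · exact h' 0 3 1 (by decide) (by decide) (by decide) (br_zero_comm a) (br_zero_comm b)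
  · exact h' 2 1 3 (by decide) (by decide) (by decide) (br_zero_comm a) (br_zero_comm b)
  · exact h' 1 2 0 (by decide) (by decide) (by decide) a b

theorem an_br {X : Type} [NormedAddCommGroup X] [NormedSpace ℂ X] {u v : X → ℂ × ℂ} {x : X}
    (hu : AnalyticAt ℂ u x) (hv : AnalyticAt ℂ v x) : AnalyticAt ℂ (fun y => br (u y) (v y)) x :=
  ((analyticAt_fst.comp hu).mul (analyticAt_snd.comp hv)).sub
    ((analyticAt_snd.comp hu).mul (analyticAt_fst.comp hv))

theorem an_CR {X : Type} [NormedAddCommGroup X] [NormedSpace ℂ X] {u : X → Fin 4 → ℂ × ℂ} {x : X}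
    (hu : ∀ i, AnalyticAt ℂ (fun y => u y i) x) : AnalyticAt ℂ (fun y => CR (u y)) x :=
  ((an_br (hu 3) (hu 0)).mul (an_br (hu 1) (hu 2))).prod
    ((an_br (hu 3) (hu 2)).mul (an_br (hu 1) (hu 0)))

theorem an_act {X : Type} [NormedAddCommGroup X] [NormedSpace ℂ X] (M : Matrix (Fin 2) (Fin 2) ℂ)
    {u : X → ℂ × ℂ} {x : X} (hu : AnalyticAt ℂ u x) : AnalyticAt ℂ (fun y => act M (u y)) x :=
  ((analyticAt_const.mul (analyticAt_fst.comp hu)).add
    (analyticAt_const.mul (analyticAt_snd.comp hu))).prod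
  ((analyticAt_const.mul (analyticAt_fst.comp hu)).add
    (analyticAt_const.mul (analyticAt_snd.comp hu)))

theorem br_lft_ne {a b : OnePoint ℂ} (h : a ≠ b) : br (lft a) (lft b) ≠ 0 := fun h0 =>
  h (by rw [← proj_lft a, ← proj_lft b]; exact (proj_eq_iff (lft_ne a) (lft_ne b)).2 h0)

/-- The matrix which sends three points to `0, 1, ∞`. -/
def T3 (a b c : ℂ × ℂ) : Matrix (Fin 2) (Fin 2) ℂ :=
  !![a.2 * br b c, -a.1 * br b c; c.2 * br b a, -c.1 * br b a]

theorem act_T3 (a b c u : ℂ × ℂ) : act (T3 a b c) u = (br u a * br b c, br u c * br b a) := by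
  simp only [act, T3, Matrix.of_apply, Matrix.cons_val', Matrix.cons_val_zero,
    Matrix.cons_val_one, Matrix.cons_val_fin_one]
  refine Prod.ext ?_ ?_ <;> simp only [br] <;> ring

theorem det_T3 {a b c : ℂ × ℂ} (h1 : br b c ≠ 0) (h2 : br b a ≠ 0) (h3 : br a c ≠ 0) :
    (T3 a b c).det ≠ 0 := by
  have e : (T3 a b c).det = br b c * br b a * br a c := by
    unfold T3
    rw [Matrix.det_fin_two_of]
    simp only [br]
    ring
  rw [e]
  exact mul_ne_zero (mul_ne_zero h1 h2) h3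

/-- The inverse Moebius map in affine coordinates. -/
def mi (B : Matrix (Fin 2) (Fin 2) ℂ) (z : ℂ) : ℂ := (B 1 1 * z - B 0 1) / (B 0 0 - B 1 0 * z)

theorem mi_spec {B : Matrix (Fin 2) (Fin 2) ℂ} (hB : B.det ≠ 0) {η : ℂ}
    (h : (act B (η, 1)).2 ≠ 0) : AnalyticAt ℂ (mi B) (toC (proj (act B (η, 1)))) ∧
      mi B (toC (proj (act B (η, 1)))) = η := by
  rw [toC_proj h]
  rw [Matrix.det_fin_two] at hB
  simp only [act, mul_one] at h ⊢
  have e : B 0 0 - B 1 0 * ((B 0 0 * η + B 0 1) / (B 1 0 * η + B 1 1)) =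
      (B 0 0 * B 1 1 - B 0 1 * B 1 0) / (B 1 0 * η + B 1 1) := by
    field_simp
    ring
  have h1 : B 0 0 - B 1 0 * ((B 0 0 * η + B 0 1) / (B 1 0 * η + B 1 1)) ≠ 0 := by
    rw [e]; exact div_ne_zero hB h
  refine ⟨((analyticAt_const.mul analyticAt_id).sub analyticAt_const).div
    (analyticAt_const.sub (analyticAt_const.mul analyticAt_id)) h1, ?_⟩
  rw [mi, div_eq_iff h1, e, ← mul_div_assoc, ← mul_div_assoc, eq_div_iff h, sub_mul,
    div_mul_cancel₀ _ h]
  ring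

variable {Y V : Type} {h : Y → V}

/-- The configurations of points which are distinct at each vertex. -/
def Conf (h : Y → V) : Set (Y → OnePoint ℂ) := {w | ∀ y y', h y = h y' → w y = w y' → y = y'}

theorem conf_ne {w : Y → OnePoint ℂ} (hw : w ∈ Conf h) (q : Quad h) {i j : Fin 4} (hij : i ≠ j) :
    w (q.1 i) ≠ w (q.1 j) := fun e =>
  hij (q.2.1 (hw _ _ ((q.2.2 i).trans (q.2.2 j).symm) e))

theorem cr_eq {w : Y → OnePoint ℂ} (hw : w ∈ Conf h) (q : Quad h) :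
    cr h w q = proj (CR fun i => lft (w (q.1 i))) := by
  have h1 : (CR fun i => lft (w (q.1 i))).2 ≠ 0 :=
    mul_ne_zero (br_lft_ne (conf_ne hw q (by decide))) (br_lft_ne (conf_ne hw q (by decide)))
  rw [proj, if_neg h1, cr]
  simp only [df_eq]
  rfl

theorem cr_eq' {w : Y → OnePoint ℂ} (hw : w ∈ Conf h) (q : Quad h) {u : Fin 4 → ℂ × ℂ}
    (hu : ∀ i, u i ≠ 0) {M : Matrix (Fin 2) (Fin 2) ℂ} (hM : M.det ≠ 0)
    (e : ∀ i, w (q.1 i) = mob M (proj (u i))) : cr h w q = proj (CR u) := by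
  rw [cr_eq hw]
  exact CR_congr hu (fun i => lft_ne _) hM fun i => by rw [proj_lft, e]

theorem cr_mob {w w' : Y → OnePoint ℂ} (hw : w ∈ Conf h) {A : V → Matrix (Fin 2) (Fin 2) ℂ}
    (hA : ∀ v, (A v).det ≠ 0) (e : ∀ y, w' y = mob (A (h y)) (w y)) :
    w' ∈ Conf h ∧ cr h w' = cr h w := by
  have h1 : w' ∈ Conf h := fun y y' a b =>
    hw y y' a (mob_injective (hA (h y)) (by rw [← e, b, e, a]))
  refine ⟨h1, funext fun q => ?_⟩
  rw [cr_eq hw]
  exact cr_eq' h1 q (fun i => lft_ne _) (hA (h (q.1 0))) fun i => by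
    rw [proj_lft, e, q.2.2 i]

end Vale.Agent.P273SN

end
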