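import Vale.Agent.P273SW.Defs
import Vale.Agent.P273.H728.CellF

/-!
# P273S, block N: statements of the rows OVL and XI0
-/

noncomputable section

namespace Vale.Agent.P273SN

open Set Vale.Agent.P273 H728
open Vale.Agent.P273.H183 (Fam)

universe u

/-- The point of the region of a cell. -/
def pc {p q : ℕ} (hp : p ≤ q) (hq : q ≤ 6) (σ : Bool → Equiv.Perm (Fin 7)) (e : Bool → Bool)
    (c : Cell) (ζ : Fin 8 → ℂ) : (rg (Tc hp hq σ e c)).Sp :=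
  H732.scl _ (iot hp hq σ e c ζ)

/-- The value of the embedding at a point of a cell. -/
def ec {p q : ℕ} (hp : p ≤ q) (hq : q ≤ 6) (σ : Bool → Equiv.Perm (Fin 7)) (e : Bool → Bool)
    (c : Cell) (ζ : Fin 8 → ℂ) : P273SW.Amb :=
  P273SW.eR (rg (Tc hp hq σ e c)) (Sc σ c) (pc hp hq σ e c ζ)

/-- The generic points of the chart of a cell. -/
def Gen (s : Bool) (c : Cell) : Set (Fin 8 → ℂ) :=
  {ζ | (∀ j, ζ j ≠ 0) ∧ (∀ k, D0.xA s c ζ ≠ D0.ct k) ∧ (∀ k, D0.xB s c ζ ≠ D0.ct k) ∧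
    D0.kap s c ζ ∈ bs s}

/-- **OVL**: the embeddings of two cells agree at generic points with the same image. -/
def OVL : Prop := ∀ (p q : ℕ) (hp : p ≤ q) (hq : q ≤ 6) (σ : Bool → Equiv.Perm (Fin 7))
  (e : Bool → Bool) (c c' : Cell) (ζ ζ' : Fin 8 → ℂ), ζ ∈ Gen (sm e) c → ζ' ∈ Gen (sm e) c' →
  pc hp hq σ e c ζ ∈ (rg (Tc hp hq σ e c)).dom (Sc σ c) →
  pc hp hq σ e c' ζ' ∈ (rg (Tc hp hq σ e c')).dom (Sc σ c') →
  D0.kap (sm e) c ζ = D0.kap (sm e) c' ζ' → ec hp hq σ e c ζ = ec hp hq σ e c' ζ'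

/-- **XI0**: the class of the glued curve is the class of the curve of the region. -/
def XI0 : Prop := ∀ (Z : Type u) [TopologicalSpace Z]
  (cls : ∀ m, Fam H95.L m → (Fin m → ℂ) → Z), P273SW.NatMap cls →
  ∀ (p q : Fin 7) (hp : p.1 ≤ q.1) (hq : q.1 ≤ 6) (σ : Bool → Equiv.Perm (Fin 7))
    (e : Bool → Bool) (C : Fam H95.L 8), C.IsStable → (coordE e p q hp σ).IsGlued C →
  ∀ (c : Cell), ∀ ζ ∈ D0.Om (sm e) c, ∃ C' : Fam H95.L 17,
    H888.Real (H680.k17 (rg (Tc hp hq σ e c))) (rg (Tc hp hq σ e c)).psi (Sc σ c)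
      ((rg (Tc hp hq σ e c)).sht (Sc σ c)) C' ∧
    (H680.k17 (rg (Tc hp hq σ e c))).symm (pc hp hq σ e c ζ) ∈ C'.B ∧
    cls 8 C (D0.kap (sm e) c ζ) =
      cls 17 C' ((H680.k17 (rg (Tc hp hq σ e c))).symm (pc hp hq σ e c ζ))

end Vale.Agent.P273SN

end
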