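import Vale.Agent.P273SN.Base
import Vale.Agent.P273SN.Rows

/-!
# P273S, block N: homogeneous positions on the chart of a cell
-/

set_option linter.all false

noncomputable section

namespace Vale.Agent.P273SN

open Set Sum Filter Topology MeasureTheory Vale.Agent.P273 H837 H728 P273SZ

/-- The exchange of the coordinates. -/
def sw : Matrix (Fin 2) (Fin 2) ℂ := !![0, 1; 1, 0]

theorem det_sw : sw.det ≠ 0 := by simp [sw]

theorem act_sw (z : ℂ) : act sw (z, 1) = (1, z) := by simp [sw, act]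

/-- An affine map. -/
def af (a b : ℂ) : Matrix (Fin 2) (Fin 2) ℂ := !![a, b; 0, 1]

theorem det_af (a b : ℂ) : (af a b).det = a := by simp [af]

theorem act_af (a b : ℂ) (u : ℂ × ℂ) : act (af a b) u = (a * u.1 + b * u.2, u.2) := by
  simp [af, act]

/-- The matrix of a zone. -/
def plh : Zone → Matrix (Fin 2) (Fin 2) ℂ
  | .inl false => 1
  | .inl true => sw
  | .inr k => af D0.ρ (D0.ct k)

theorem det_plh (l : Zone) : (plh l).det ≠ 0 := by
  rcases l with (_ | _) | k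
  · simp [plh]
  · exact det_sw
  · rw [plh, det_af]; exact D0.rho_ne

theorem proj_plh (l : Zone) {η : ℂ} (h : η ≠ 0) :
    proj (act (plh l) (η, 1)) = (D0.place l η : ℂ) := by
  rcases l with (_ | _) | k
  · rw [plh, act_one, proj_one]; rfl
  · rw [plh, act_sw, proj_inf, H183.inf, if_neg h]; rfl
  · rw [plh, act_af, proj_eq_coe]
    simp [TD.place, add_comm]

variable (s : Bool) (cl : Cell)

/-- The coordinate in the zone. -/
def et (ζ : Fin 8 → ℂ) (j : Fin 8) : ℂ :=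
  if cl.Same s ∧ j = cf (!cl.ord) then ζ (cf cl.ord) * ζ j else ζ j

theorem xA_et (ζ : Fin 8 → ℂ) : D0.xA s cl ζ = D0.place (cl.loc true) (et s cl ζ 6) := by
  unfold TD.xA et
  cases cl.ord <;> simp [cf]

theorem xB_et (ζ : Fin 8 → ℂ) : D0.xB s cl ζ = D0.place (cl.loc false) (et s cl ζ 7) := by
  unfold TD.xB et
  cases cl.ord <;> simp [cf]

theorem an_et (ζ : Fin 8 → ℂ) (j : Fin 8) : AnalyticAt ℂ (fun ζ => et s cl ζ j) ζ := by
  unfold et
  split_ifs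
  · exact (TD.an_proj _ _).mul (TD.an_proj _ _)
  · exact TD.an_proj _ _

theorem cf_ge (b : Bool) : ¬ (cf b).1 < 6 := by cases b <;> decide

theorem cf_inj {b b' : Bool} (h : cf b = cf b') : b = b' := by
  cases b <;> cases b' <;> simp_all [cf]

theorem cf_cases (j : Fin 8) : j.1 < 6 ∨ ∃ b, j = cf b := by
  rcases TD.fin8_cases j with h | h | h
  · exact Or.inl h
  · exact Or.inr ⟨true, h⟩
  · exact Or.inr ⟨false, h⟩

theorem et_lt (ζ : Fin 8 → ℂ) {j : Fin 8} (h : j.1 < 6) : et s cl ζ j = ζ j :=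
  if_neg fun h1 => cf_ge _ (h1.2 ▸ h)

theorem et_ne {ζ : Fin 8 → ℂ} (h : ∀ j, ζ j ≠ 0) (j : Fin 8) : et s cl ζ j ≠ 0 := by
  unfold et
  split_ifs
  · exact mul_ne_zero (h _) (h _)
  · exact h _

/-- The matrix of a coordinate. -/
def Bm (j : Fin 8) : Matrix (Fin 2) (Fin 2) ℂ :=
  if h : j.1 < 6 then (if cl.bit ⟨j.1, h⟩ = true then 1 else sw)
  else MM D0 * plh (cl.loc (decide (j = 6)))

theorem det_Bm (j : Fin 8) : (Bm cl j).det ≠ 0 := by
  unfold Bm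
  split_ifs
  · simp
  · exact det_sw
  · rw [Matrix.det_mul]; exact mul_ne_zero (det_MM D0) (det_plh _)

theorem Bm_cf (b : Bool) : Bm cl (cf b) = MM D0 * plh (cl.loc b) := by
  rw [Bm, dif_neg (cf_ge b)]
  cases b <;> rfl

theorem one_ne (z : ℂ) : ((z, 1) : ℂ × ℂ) ≠ 0 := by simp

/-- The position of a core mark on the `x`-line. -/
def Xh (b : Bool) (ζ : Fin 8 → ℂ) : ℂ × ℂ := act (plh (cl.loc b)) (et s cl ζ (cf b), 1)

theorem Xh_ne (b : Bool) (ζ : Fin 8 → ℂ) : Xh s cl b ζ ≠ 0 := act_ne (det_plh _) (one_ne _)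

/-- The homogeneous positions. -/
def W0 (ζ : Fin 8 → ℂ) : Fin 3 ⊕ Fin 8 → ℂ × ℂ :=
  Sum.elim p3 fun j => act (Bm cl j) (et s cl ζ j, 1)

theorem W0_cf (ζ : Fin 8 → ℂ) (b : Bool) :
    W0 s cl ζ (inr (cf b)) = act (MM D0) (Xh s cl b ζ) := by
  change act (Bm cl (cf b)) _ = _
  rw [Bm_cf, ← act_act]
  rfl

theorem W0_ne (ζ : Fin 8 → ℂ) (l : Fin 3 ⊕ Fin 8) : W0 s cl ζ l ≠ 0 := by
  rcases l with i | j
  · exact p3_ne i
  · exact act_ne (det_Bm cl j) (one_ne _)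

theorem an_W0 (ζ : Fin 8 → ℂ) (l : Fin 3 ⊕ Fin 8) : AnalyticAt ℂ (fun ζ => W0 s cl ζ l) ζ := by
  rcases l with i | j
  · exact analyticAt_const
  · exact an_act _ ((an_et s cl ζ j).prod analyticAt_const)

theorem proj_p3' (i : Fin 3) : proj (p3 i) = mob (MM D0) (D0.ct i : ℂ) := by
  rw [mob_MM_ct, proj_p3 (m := 8) 0]

theorem br_W0 (ζ : Fin 8 → ℂ) (b : Bool) (i : Fin 3) :
    br (W0 s cl ζ (inr (cf b))) (p3 i) = 0 ↔ br (Xh s cl b ζ) (D0.ct i, 1) = 0 := by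
  rw [← proj_eq_iff (W0_ne _ _ _ _) (p3_ne i), ← proj_eq_iff (Xh_ne _ _ _ _) (one_ne _), W0_cf,
    ← mob_proj (det_MM D0) (Xh_ne _ _ _ _), proj_p3', proj_one]
  exact (mob_injective (det_MM D0)).eq_iff

/-- The domain of the chart. -/
def Vc : Set (Fin 8 → ℂ) := {ζ | ∀ b i, cl.loc b ≠ inr i → br (Xh s cl b ζ) (D0.ct i, 1) ≠ 0}

theorem an_Xh (b : Bool) (ζ : Fin 8 → ℂ) : AnalyticAt ℂ (Xh s cl b) ζ :=
  an_act _ ((an_et s cl ζ _).prod analyticAt_const)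

theorem isOpen_Vc : IsOpen (Vc s cl) := by
  have : Vc s cl = ⋂ b, ⋂ i, ⋂ (_ : cl.loc b ≠ inr i), {ζ | br (Xh s cl b ζ) (D0.ct i, 1) ≠ 0} := by
    ext ζ; simp [Vc]
  rw [this]
  refine isOpen_iInter_of_finite fun b => isOpen_iInter_of_finite fun i =>
    isOpen_iInter_of_finite fun _ => isOpen_ne_fun ?_ continuous_const
  exact continuous_iff_continuousAt.2 fun ζ =>
    (an_br (an_Xh s cl b ζ) analyticAt_const).continuousAt

/-- The centre which is sent to infinity. -/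
def kk (j : Fin 8) : Fin 3 :=
  if h : j.1 < 6 then (if cl.bit ⟨j.1, h⟩ = true then 2 else 0)
  else (cl.loc (decide (j = 6))).elim (fun _ => 0) fun k => k + 1

theorem succ_ne (k : Fin 3) : k + 1 ≠ k := by revert k; decide

variable {s cl}

theorem W0_kk {ζ : Fin 8 → ℂ} (h : ζ ∈ Vc s cl) (j : Fin 8) :
    br (W0 s cl ζ (inr j)) (p3 (kk cl j)) ≠ 0 := by
  rcases cf_cases j with hj | ⟨b, rfl⟩
  · change br (act (Bm cl j) (et s cl ζ j, 1)) _ ≠ 0
    rw [Bm, kk, dif_pos hj, dif_pos hj]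
    split_ifs
    · rw [act_one]; simp [br, p3]
    · rw [act_sw]; simp [br, p3]
  · rw [Ne, br_W0]
    refine h b _ ?_
    have e : decide (cf b = 6) = b := by cases b <;> rfl
    rw [kk, dif_neg (cf_ge b), e]
    rcases cl.loc b with z | k
    · simp
    · simpa using (succ_ne k).symm

theorem M_ct (k : Fin 3) : D0.M (D0.ct k) = 0 ∨ D0.M (D0.ct k) = 1 := by
  fin_cases k
  · exact Or.inl (by simp [TD.M])
  · exact Or.inr D0.M_one
  · exact Or.inl (by simp [TD.M])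

theorem gen_of {ζ : Fin 8 → ℂ} (h0 : ∀ j, ζ j ≠ 0) (h : D0.kap s cl ζ ∈ bs s) : ζ ∈ Gen s cl := by
  refine ⟨h0, fun k e => ?_, fun k e => ?_, h⟩
  · have := h.1 6
    rw [TD.kap_six, e] at this
    exact (M_ct k).elim this.1 this.2
  · have := h.1 7
    rw [TD.kap_seven, e] at this
    exact (M_ct k).elim this.1 this.2

theorem om_gen {ζ : Fin 8 → ℂ} (h : ζ ∈ D0.Om s cl) (h0 : ∀ j, ζ j ≠ 0) : ζ ∈ Gen s cl :=
  gen_of h0 (TD.kap_mem h)

theorem kap_cf (ζ : Fin 8 → ℂ) (b : Bool) :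
    D0.kap s cl ζ (cf b) = D0.M (D0.place (cl.loc b) (et s cl ζ (cf b))) := by
  cases b
  · exact (TD.kap_seven ζ).trans (congrArg _ (xB_et s cl ζ))
  · exact (TD.kap_six ζ).trans (congrArg _ (xA_et s cl ζ))

theorem gen_ne {ζ : Fin 8 → ℂ} (h : ζ ∈ Gen s cl) (b : Bool) (k : Fin 3) :
    D0.place (cl.loc b) (et s cl ζ (cf b)) ≠ D0.ct k := by
  cases b
  · exact (xB_et s cl ζ) ▸ h.2.2.1 k
  · exact (xA_et s cl ζ) ▸ h.2.1 k

theorem proj_Xh {ζ : Fin 8 → ℂ} (h : ∀ j, ζ j ≠ 0) (b : Bool) :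
    proj (Xh s cl b ζ) = (D0.place (cl.loc b) (et s cl ζ (cf b)) : ℂ) :=
  proj_plh _ (et_ne s cl h _)

theorem gen_Vc {ζ : Fin 8 → ℂ} (h : ζ ∈ Gen s cl) : ζ ∈ Vc s cl := by
  intro b i _ e
  rw [← proj_eq_iff (Xh_ne _ _ _ _) (one_ne _), proj_Xh h.1, proj_one] at e
  exact gen_ne h b i (OnePoint.coe_injective e)

theorem proj_W0 {ζ : Fin 8 → ℂ} (h : ζ ∈ Gen s cl) (l : Fin 3 ⊕ Fin 8) :
    proj (W0 s cl ζ l) = pt (D0.kap s cl ζ) l := by
  rcases l with i | j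
  · exact proj_p3 _ i
  · rcases cf_cases j with hj | ⟨b, rfl⟩
    · change proj (act (Bm cl j) (et s cl ζ j, 1)) = (D0.kap s cl ζ j : ℂ)
      rw [Bm, dif_pos hj, TD.kap_lt ζ hj, et_lt s cl ζ hj]
      split_ifs
      · rw [act_one, proj_one]
      · rw [act_sw, proj_inf, H183.inf, if_neg (h.1 j)]
    · rw [W0_cf, ← mob_proj (det_MM D0) (Xh_ne _ _ _ _), proj_Xh h.1, mob_MM D0 (gen_ne h b 2),
        ← kap_cf]
      rfl

/-! ### The zoom at a node -/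

/-- The neck of the first core mark. -/
def nk (cl : Cell) : Fin 3 := (cl.loc true).elim (fun _ => 0) id

theorem same_loc (hs : cl.Same s) (b : Bool) : cl.loc b = inr (nk cl) := by
  obtain ⟨k, hk⟩ := Sum.isRight_iff.1 hs.2.2
  have : nk cl = k := by rw [nk, hk]; rfl
  cases b
  · rw [← hs.2.1, hk, this]
  · rw [hk, this]

theorem et_fst (ζ : Fin 8 → ℂ) : et s cl ζ (cf cl.ord) = ζ (cf cl.ord) :=
  if_neg fun h => by simpa using cf_inj h.2

theorem et_snd (hs : cl.Same s) (ζ : Fin 8 → ℂ) :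
    et s cl ζ (cf (!cl.ord)) = ζ (cf cl.ord) * ζ (cf (!cl.ord)) := if_pos ⟨hs, rfl⟩

theorem Xh_same (hs : cl.Same s) (b : Bool) (ζ : Fin 8 → ℂ) :
    Xh s cl b ζ = (D0.ρ * et s cl ζ (cf b) + D0.ct (nk cl), 1) := by
  rw [Xh, same_loc hs, plh, act_af, mul_one]

theorem Vc_same (hs : cl.Same s) {ζ : Fin 8 → ℂ} (h : ζ ∈ Vc s cl) (b : Bool) {i : Fin 3}
    (hi : i ≠ nk cl) : D0.ρ * et s cl ζ (cf b) - (D0.ct i - D0.ct (nk cl)) ≠ 0 := by
  have := h b i (by rw [same_loc hs]; exact fun e => hi (inr.inj e).symm)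
  rw [Xh_same hs] at this
  intro e
  apply this
  simp only [br]
  linear_combination e

/-- The homogeneous positions after the zoom. -/
def W1 (cl : Cell) (ζ : Fin 8 → ℂ) : Fin 3 ⊕ Fin 8 → ℂ × ℂ :=
  Sum.elim (fun i => if i = nk cl then (0, 1) else (D0.ct i - D0.ct (nk cl), D0.ρ * ζ (cf cl.ord)))
    fun j => if j = cf cl.ord then (1, 1) else (ζ j, 1)

theorem W1_ne (ζ : Fin 8 → ℂ) (l : Fin 3 ⊕ Fin 8) : W1 cl ζ l ≠ 0 := by
  rcases l with i | j <;> simp only [W1, Sum.elim_inl, Sum.elim_inr] <;> split_ifs with h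
  · exact one_ne _
  · exact fun e => D0.ct_ne h (congrArg Prod.fst e)
  · exact one_ne _
  · exact one_ne _

theorem an_W1 (ζ : Fin 8 → ℂ) (l : Fin 3 ⊕ Fin 8) : AnalyticAt ℂ (fun ζ => W1 cl ζ l) ζ := by
  rcases l with i | j <;> simp only [W1, Sum.elim_inl, Sum.elim_inr] <;> split_ifs with h
  · exact analyticAt_const
  · exact analyticAt_const.prod (analyticAt_const.mul (TD.an_proj _ _))
  · exact analyticAt_const
  · exact (TD.an_proj _ _).prod analyticAt_const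

theorem W1_fst (ζ : Fin 8 → ℂ) : W1 cl ζ (inr (cf cl.ord)) = (1, 1) := if_pos rfl

theorem W1_snd (ζ : Fin 8 → ℂ) : W1 cl ζ (inr (cf (!cl.ord))) = (ζ (cf (!cl.ord)), 1) :=
  if_neg fun h => by simpa using cf_inj h

theorem W1_nk (ζ : Fin 8 → ℂ) : W1 cl ζ (inl (nk cl)) = (0, 1) := if_pos rfl

theorem W1_inl (ζ : Fin 8 → ℂ) {i : Fin 3} (hi : i ≠ nk cl) :
    W1 cl ζ (inl i) = (D0.ct i - D0.ct (nk cl), D0.ρ * ζ (cf cl.ord)) := if_neg hi

theorem bool_cases (o b : Bool) : b = o ∨ b = !o := by cases o <;> cases b <;> simp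

theorem proj_W1 (hs : cl.Same s) {ζ : Fin 8 → ℂ} (h : ζ (cf cl.ord) ≠ 0) {l : Fin 3 ⊕ Fin 8}
    (hl : ∀ j, l = inr j → ∃ b, j = cf b) :
    proj (W0 s cl ζ l) =
      mob (MM D0 * af (D0.ρ * ζ (cf cl.ord)) (D0.ct (nk cl))) (proj (W1 cl ζ l)) := by
  have h1 : (D0.ρ : ℂ) * ζ (cf cl.ord) ≠ 0 := mul_ne_zero D0.rho_ne h
  have h2 : (af (D0.ρ * ζ (cf cl.ord)) (D0.ct (nk cl))).det ≠ 0 := by rw [det_af]; exact h1
  rw [← mob_mob (det_MM D0) h2, mob_proj h2 (W1_ne ζ l), act_af]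
  rcases l with i | j
  · change proj (p3 i) = _
    rw [proj_p3']
    congr 1
    symm
    rw [proj_eq_coe]
    by_cases hi : i = nk cl
    · rw [hi, W1_nk]; simp
    · rw [W1_inl ζ hi]
      exact ⟨h1, by ring⟩
  · obtain ⟨b, rfl⟩ := hl j rfl
    rw [W0_cf, ← mob_proj (det_MM D0) (Xh_ne _ _ _ _), Xh_same hs]
    congr 2
    rcases bool_cases cl.ord b with rfl | rfl
    · rw [W1_fst, et_fst]; simp
    · rw [W1_snd, et_snd hs]; simp [mul_assoc]

theorem W1_fst_ne (hs : cl.Same s) {ζ : Fin 8 → ℂ} (h : ζ ∈ Vc s cl) (i : Fin 3) :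
    br (W1 cl ζ (inr (cf cl.ord))) (W1 cl ζ (inl i)) ≠ 0 := by
  rw [W1_fst]
  by_cases hi : i = nk cl
  · rw [hi, W1_nk]; simp [br]
  · rw [W1_inl ζ hi]
    have := Vc_same hs h cl.ord hi
    rw [et_fst] at this
    simpa [br] using this

theorem W1_snd_ne (hs : cl.Same s) {ζ : Fin 8 → ℂ} (h : ζ ∈ Vc s cl) {i : Fin 3} (hi : i ≠ nk cl) :
    br (W1 cl ζ (inr (cf (!cl.ord)))) (W1 cl ζ (inl i)) ≠ 0 := by
  rw [W1_snd, W1_inl ζ hi]
  have := Vc_same hs h (!cl.ord) hi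
  rw [et_snd hs] at this
  intro e
  apply this
  simp only [br] at e
  linear_combination e

/-! ### Null sets -/

theorem an_place (l : Zone) {z : ℂ} (h : z ≠ 0) : AnalyticAt ℂ (D0.place l) z := by
  rcases l with (_ | _) | k
  · exact analyticAt_id
  · exact analyticAt_id.inv h
  · exact analyticAt_const.add (analyticAt_const.mul analyticAt_id)

theorem null_diag (l l' : Zone) : volume {ζ : Fin 8 → ℂ | ζ 6 ≠ 0 ∧ ζ 7 ≠ 0 ∧
    D0.place l (ζ 6) = D0.place l' (ζ 7)} = 0 := by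
  let S : Set (Fin 8 → ℂ) := {ζ | ζ 7 = 0 ∧ ζ 6 ≠ 0 ∧ (l' = inl true → D0.place l (ζ 6) ≠ 0)}
  let g : (Fin 8 → ℂ) → Fin 8 → ℂ := fun ζ => TD.mk8 ζ (ζ 6) (D0.pli l' (D0.place l (ζ 6)))
  have h1 : volume (g '' S) = 0 := by
    refine TD.null_image (fun ζ h => ?_)
      (measure_mono_null (fun ζ h => h.1) (TD.null_coord (S := {0}) (by simp) 7))
    refine differentiableAt_pi.2 fun j => AnalyticAt.differentiableAt ?_
    simp only [g, TD.mk8]
    split_ifs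
    · exact TD.an_proj _ _
    · exact TD.pli_an ((an_place l h.2.1).comp (f := fun ζ : Fin 8 → ℂ => ζ 6)
        (TD.an_proj _ _)) h.2.2
    · exact TD.an_proj _ _
  refine measure_mono_null (fun ζ h => ?_) h1
  refine ⟨TD.mk8 ζ (ζ 6) 0, ⟨TD.mk8_seven _ _ _, ?_, ?_⟩, ?_⟩
  · rw [TD.mk8_six]; exact h.1
  · rintro rfl
    rw [TD.mk8_six, h.2.2]
    exact inv_ne_zero h.2.1
  · funext j
    simp only [g]
    rw [TD.mk8_six, h.2.2, TD.pli_place]
    rcases TD.fin8_cases j with hj | rfl | rfl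
    · rw [TD.mk8_lt _ _ _ hj, TD.mk8_lt _ _ _ hj]
    · rw [TD.mk8_six]
    · rw [TD.mk8_seven]

theorem null_gen : volume (Vc s cl \ Gen s cl) = 0 := by
  have h1 : volume ((⋃ j : Fin 8, {ζ : Fin 8 → ℂ | ζ j ∈ ({0, 1} : Set ℂ)}) ∪
      {ζ : Fin 8 → ℂ | ζ 6 ≠ 0 ∧ ζ 7 ≠ 0 ∧
        D0.place (cl.loc true) (ζ 6) = D0.place (cl.loc false) (ζ 7)}) = 0 :=
    measure_union_null (measure_iUnion_null fun j =>
      TD.null_coord ((toFinite _).measure_zero _) j) (null_diag _ _)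
  refine measure_mono_null (fun ζ h => ?_) h1
  by_contra hn
  simp only [mem_union, mem_iUnion, mem_setOf_eq, mem_insert_iff, mem_singleton_iff, not_or,
    not_exists] at hn
  have h0 : ∀ j, ζ j ≠ 0 := fun j => (hn.1 j).1
  have key : ∀ b k, D0.place (cl.loc b) (et s cl ζ (cf b)) ≠ D0.ct k := by
    intro b k e
    by_cases hl : cl.loc b = inr k
    · rw [hl] at e
      have e' : D0.ct k + D0.ρ * et s cl ζ (cf b) = D0.ct k := e
      exact mul_ne_zero D0.rho_ne (et_ne s cl h0 (cf b)) (by linear_combination e')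
    · refine h.1 b k hl ?_
      rw [← proj_eq_iff (Xh_ne _ _ _ _) (one_ne _), proj_Xh h0, proj_one, e]
  refine h.2 (gen_of h0 ⟨fun j => ?_, fun hs e => ?_⟩)
  · rcases cf_cases j with hj | ⟨b, rfl⟩
    · rw [TD.kap_lt ζ hj]
      split_ifs
      · exact hn.1 j
      · exact ⟨inv_ne_zero (h0 j), fun e => (hn.1 j).2 (inv_eq_one.1 e)⟩
    · rw [kap_cf]
      exact ⟨D0.M_ne_zero (key b 0) (key b 2), D0.M_ne_one (key b 1) (key b 2)⟩
  · have e1 : D0.place (cl.loc true) (et s cl ζ (cf true)) =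
        D0.place (cl.loc false) (et s cl ζ (cf false)) :=
      D0.M_inj (key true 2) (key false 2) (by rw [← kap_cf, ← kap_cf]; exact e)
    by_cases hs' : cl.Same s
    · rw [hs'.2.1] at e1
      have e2 := D0.place_inj e1
      have e3 : et s cl ζ (cf cl.ord) = et s cl ζ (cf (!cl.ord)) := by
        cases cl.ord
        · exact e2.symm
        · exact e2
      rw [et_fst, et_snd hs'] at e3
      exact (hn.1 _).2 (mul_left_cancel₀ (h0 _) (e3.symm.trans (mul_one _).symm))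
    · rw [et, et, if_neg fun h => hs' h.1, if_neg fun h => hs' h.1] at e1
      exact hn.2 ⟨h0 6, h0 7, e1⟩

theorem sub_closure {m : ℕ} {U G : Set (Fin m → ℂ)} (hU : IsOpen U) (h : volume (U \ G) = 0) :
    U ⊆ closure (U ∩ G) := by
  have h1 : Dense (U \ G)ᶜ := Measure.dense_of_ae (μ := volume) (p := fun x => x ∈ (U \ G)ᶜ)
    (compl_mem_ae_iff.2 h)
  refine (h1.open_subset_closure_inter hU).trans (closure_mono fun x hx => ⟨hx.1, ?_⟩)
  by_contra hn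
  exact hx.2 ⟨hx.1, hn⟩

/-- Generic points of the base are images of generic points of the chart. -/
theorem exists_gen (cl : Cell) {b : Fin 8 → ℂ} (hb : b ∈ bs s)
    (h : ∀ j, b j ∉ ({(D0.ct 1 - D0.ct 2) / (D0.ct 1 - D0.ct 0), D0.M 0} : Set ℂ)) :
    ∃ ζ ∈ Gen s cl, D0.kap s cl ζ = b := by
  simp only [mem_insert_iff, mem_singleton_iff, not_or] at h
  have h1 : ∀ j, b j * (D0.ct 1 - D0.ct 0) - (D0.ct 1 - D0.ct 2) ≠ 0 := fun j e =>
    (h j).1 (by rw [eq_div_iff (D0.ct_ne (by decide))]; exact sub_eq_zero.1 e)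
  have h2 : ∀ j l, D0.pli l (D0.Mi (b j)) ≠ 0 := by
    intro j l
    obtain ⟨a1, a2⟩ := D0.M_Mi (h1 j)
    have a3 : D0.Mi (b j) ≠ 0 := fun e => (h j).2 (by rw [← a2, e])
    rcases l with (_ | _) | k
    · exact a3
    · exact inv_ne_zero a3
    · exact div_ne_zero (sub_ne_zero.2 (TD.ne_ct a1 a2 (hb.1 j).1 (hb.1 j).2 k)) D0.rho_ne
  have h3 : D0.kap s cl (D0.kin s cl b) = b :=
    TD.kap_kin (h1 6) (h1 7) (fun _ => h2 _ _) fun _ => h2 _ _
  refine ⟨_, gen_of (fun j => ?_) (by rw [h3]; exact hb), h3⟩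
  rcases TD.fin8_cases j with hj | rfl | rfl
  · rw [TD.kin_lt b hj]
    split_ifs
    · exact (hb.1 j).1
    · exact inv_ne_zero (hb.1 j).1
  · rw [TD.kin_six]
    split_ifs
    · exact div_ne_zero (h2 _ _) (h2 _ _)
    · exact h2 _ _
  · rw [TD.kin_seven]
    split_ifs
    · exact div_ne_zero (h2 _ _) (h2 _ _)
    · exact h2 _ _

end Vale.Agent.P273SN

end
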