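import Vale.Agent.P273SN.Cell

/-!
# P273S, block N: the charts of the cells
-/

set_option linter.all false

noncomputable section

namespace Vale.Agent.P273SN

open Set Sum Filter Topology MeasureTheory Vale.Agent.P273 H837 H728 P273SZ

variable {L V E : Type} {h : (E × Bool) ⊕ L → V}

/-- Coordinates of the type of a theta graph. -/
structure Th (c : Coord h 8) (s : Bool) : Prop where
  base : c.base = bs s
  two : ∀ j j', j ≠ j' → vx c j = vx c j' → s = true ∧ ¬ j.1 < 6 ∧ ¬ j'.1 < 6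
  same : s = true → vx c 6 = vx c 7

/-- The quadruples which see the zoom. -/
def Zoom (c : Coord h 8) (s : Bool) (cl : Cell) (q : Quad h) : Prop :=
  cl.Same s ∧ ∀ b, ∃ i, lab c q i = inr (cf b)

open Classical in
/-- The homogeneous positions of the points of a quadruple. -/
def WQ (c : Coord h 8) (s : Bool) (cl : Cell) (ζ : Fin 8 → ℂ) (q : Quad h) (i : Fin 4) : ℂ × ℂ :=
  if Zoom c s cl q then W1 cl ζ (lab c q i) else W0 s cl ζ (lab c q i)

/-- The parametrization of the chart of a cell. -/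
def psi (c : Coord h 8) (s : Bool) (cl : Cell) (ζ : Fin 8 → ℂ) (q : Quad h) : OnePoint ℂ :=
  proj (CR (WQ c s cl ζ q))

variable {c : Coord h 8} {s : Bool} {cl : Cell}

theorem WQ_ne (ζ : Fin 8 → ℂ) (q : Quad h) (i : Fin 4) : WQ c s cl ζ q i ≠ 0 := by
  unfold WQ
  split_ifs
  · exact W1_ne _ _
  · exact W0_ne _ _ _ _

theorem an_WQ (ζ : Fin 8 → ℂ) (q : Quad h) (i : Fin 4) :
    AnalyticAt ℂ (fun ζ => WQ c s cl ζ q i) ζ := by
  unfold WQ
  split_ifs
  · exact an_W1 _ _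
  · exact an_W0 _ _ _ _

theorem ge_cf {j : Fin 8} (hj : ¬ j.1 < 6) : ∃ b, j = cf b := (cf_cases j).resolve_left hj

theorem zoom_lab (T : Th c s) {q : Quad h} (hz : Zoom c s cl q) (i : Fin 4) (j : Fin 8)
    (e : lab c q i = inr j) : ∃ b, j = cf b := by
  obtain ⟨i', e'⟩ := hz.2 true
  by_cases hj : j = cf true
  · exact ⟨_, hj⟩
  · exact ge_cf (T.two j _ hj (lab_vx c q e e')).2.1

/-- Three labels of which two are coordinates at one vertex. -/
theorem three (T : Th c s) {q : Quad h} {R : Fin 3 ⊕ Fin 8 → Fin 3 ⊕ Fin 8 → Prop}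
    (hsy : ∀ a b, R a b → R b a)
    (h1 : ∀ (a b : Fin 3) (l : Fin 3 ⊕ Fin 8) i, lab c q i = l → a ≠ b → l ≠ inl a → l ≠ inl b →
      R (inl a) (inl b) → R l (inl a) → R l (inl b) → False)
    (h2 : ∀ a : Fin 3, s = true → (∀ b, ∃ i, lab c q i = inr (cf b)) →
      (∀ b, R (inr (cf b)) (inl a)) → False)
    (i j k : Fin 4) (hij : i ≠ j) (hik : i ≠ k) (hjk : j ≠ k) (r1 : R (lab c q i) (lab c q j))
    (r2 : R (lab c q i) (lab c q k)) (r3 : R (lab c q j) (lab c q k)) : False := by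
  have key : ∀ (i j k : Fin 4) (x y : Fin 8), i ≠ j → i ≠ k → j ≠ k → lab c q i = inr x →
      lab c q j = inr y → R (lab c q i) (lab c q k) → R (lab c q j) (lab c q k) → False := by
    intro i j k x y hij hik hjk e1 e2 r1 r2
    have hxy : x ≠ y := fun e => hij (lab_inj c q (by rw [e1, e2, e]))
    obtain ⟨hs, a1, a2⟩ := T.two x y hxy (lab_vx c q e1 e2)
    obtain ⟨b, rfl⟩ := ge_cf a1
    obtain ⟨b', rfl⟩ := ge_cf a2
    have hb : ∀ t, t = b ∨ t = b' := by
      have : b ≠ b' := fun e => hxy (by rw [e])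
      intro t
      cases t <;> cases b <;> cases b' <;> simp_all
    rcases e3 : lab c q k with a | z
    · rw [e1, e3] at r1
      rw [e2, e3] at r2
      refine h2 a hs (fun t => ?_) fun t => ?_
      · rcases hb t with rfl | rfl
        · exact ⟨i, e1⟩
        · exact ⟨j, e2⟩
      · rcases hb t with rfl | rfl
        · exact r1
        · exact r2
    · have hxz : cf b ≠ z := fun e => hik (lab_inj c q (by rw [e1, e3, e]))
      have hyz : cf b' ≠ z := fun e => hjk (lab_inj c q (by rw [e2, e3, e]))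
      obtain ⟨t, rfl⟩ := ge_cf (T.two _ z hxz (lab_vx c q e1 e3)).2.2
      rcases hb t with rfl | rfl
      · exact hxz rfl
      · exact hyz rfl
  have key' : ∀ (i j k : Fin 4) (x y : Fin 3), i ≠ j → i ≠ k → j ≠ k → lab c q i = inl x →
      lab c q j = inl y → R (lab c q i) (lab c q j) → R (lab c q i) (lab c q k) →
      R (lab c q j) (lab c q k) → False := by
    intro i j k x y hij hik hjk e1 e2 r1 r2 r3
    refine h1 x y _ k rfl (fun e => hij (lab_inj c q (by rw [e1, e2, e])))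
      (fun e => hik (lab_inj c q (by rw [e1, e]))) (fun e => hjk (lab_inj c q (by rw [e2, e])))
      (e1 ▸ e2 ▸ r1) (e1 ▸ hsy _ _ r2) (e2 ▸ hsy _ _ r3)
  rcases e1 : lab c q i with x | x <;> rcases e2 : lab c q j with y | y
  · exact key' i j k x y hij hik hjk e1 e2 r1 r2 r3
  · rcases e3 : lab c q k with z | z
    · exact key' i k j x z hik hij hjk.symm e1 e3 r2 r1 (hsy _ _ r3)
    · exact key j k i y z hjk hij.symm hik.symm e2 e3 (hsy _ _ r1) (hsy _ _ r2)
  · rcases e3 : lab c q k with z | z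
    · exact key' j k i y z hjk hij.symm hik.symm e2 e3 r3 (hsy _ _ r1) (hsy _ _ r2)
    · exact key i k j x z hik hij hjk.symm e1 e3 r1 (hsy _ _ r3)
  · exact key i j k x y hij hik hjk e1 e2 r2 r3

theorem fin3_third : ∀ a b x k : Fin 3, a ≠ b → a ≠ k → b ≠ k → x ≠ a → x ≠ b → x = k := by
  intro a b x k h1 h2 h3 h4 h5
  have := a.2
  have := b.2
  have := x.2
  have := k.2
  simp only [ne_eq, Fin.ext_iff] at *
  omega

theorem CR_WQ_ne (T : Th c s) {ζ : Fin 8 → ℂ} (hζ : ζ ∈ Vc s cl) (q : Quad h) :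
    CR (WQ c s cl ζ q) ≠ 0 := by
  refine CR_ne (WQ_ne ζ q) ?_
  by_cases hz : Zoom c s cl q
  · simp only [WQ, if_pos hz]
    refine three T (R := fun a b => br (W1 cl ζ a) (W1 cl ζ b) = 0) (fun _ _ => br_zero_comm)
      (fun a b l i e hab ha hb r1 r2 r3 => ?_) fun a _ _ r => W1_fst_ne hz.1 hζ a (r _)
    rcases l with x | j
    · obtain ⟨i6, e6⟩ := hz.2 true
      obtain ⟨i7, e7⟩ := hz.2 false
      by_cases ha' : a = nk cl
      · have hb' : b ≠ nk cl := fun e => hab (ha'.trans e.symm)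
        rw [ha', W1_nk, W1_inl ζ hb'] at r1
        exact D0.ct_ne (Ne.symm hb') (by simpa [br] using r1)
      · by_cases hb' : b = nk cl
        · rw [hb', W1_nk, W1_inl ζ ha'] at r1
          exact D0.ct_ne ha' (by simpa [br] using r1)
        · have hx : x = nk cl := by
            have h1 : x ≠ a := fun e => ha (by rw [e])
            have h2 : x ≠ b := fun e => hb (by rw [e])
            exact fin3_third _ _ _ _ hab ha' hb' h1 h2
          rw [hx, W1_nk, W1_inl ζ ha'] at r2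
          exact D0.ct_ne (Ne.symm ha') (by simpa [br] using r2)
    · obtain ⟨t, rfl⟩ := zoom_lab T hz i j e
      rcases bool_cases cl.ord t with rfl | rfl
      · exact W1_fst_ne hz.1 hζ a r2
      · by_cases ha' : a = nk cl
        · exact W1_snd_ne hz.1 hζ (fun e => hab (ha'.trans e.symm)) r3
        · exact W1_snd_ne hz.1 hζ ha' r2
  · simp only [WQ, if_neg hz]
    refine three T (R := fun a b => br (W0 s cl ζ a) (W0 s cl ζ b) = 0) (fun _ _ => br_zero_comm)
      (fun a b l i e hab ha hb r1 r2 r3 => br_p3 hab r1) fun a hs hq r => hz ⟨?_, hq⟩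
    have h1 : ∀ b, cl.loc b = inr a := fun b =>
      by_contra fun n => hζ b a n ((br_W0 s cl ζ b a).1 (r b))
    exact ⟨hs, by rw [h1, h1], by rw [h1]; rfl⟩

theorem an_psi (T : Th c s) {ζ : Fin 8 → ℂ} (hζ : ζ ∈ Vc s cl) : An (psi c s cl) ζ :=
  an_proj (u := fun ζ q => CR (WQ c s cl ζ q)) (fun q => an_CR fun i => an_WQ ζ q i)
    (CR_WQ_ne T hζ)

theorem psi_gen (T : Th c s) {ζ : Fin 8 → ℂ} (hζ : ζ ∈ Gen s cl) :
    psi c s cl ζ = beta c (D0.kap s cl ζ) := by
  funext q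
  have hb : D0.kap s cl ζ ∈ c.base := by rw [T.base]; exact hζ.2.2.2
  symm
  by_cases hz : Zoom c s cl q
  · refine cr_eq' hb q (WQ_ne ζ q) (M := MM D0 * af (D0.ρ * ζ (cf cl.ord)) (D0.ct (nk cl)))
      (by rw [Matrix.det_mul, det_af]
          exact mul_ne_zero (det_MM D0) (mul_ne_zero D0.rho_ne (hζ.1 _))) fun i => ?_
    rw [WQ, if_pos hz, ← proj_W1 hz.1 (hζ.1 _) (zoom_lab T hz i), proj_W0 hζ]
    rfl
  · refine cr_eq' hb q (WQ_ne ζ q) (M := 1) (by simp) fun i => ?_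
    rw [WQ, if_neg hz, mob_one, proj_W0 hζ]
    rfl

theorem psi_mem (T : Th c s) {ζ : Fin 8 → ℂ} (hζ : ζ ∈ Vc s cl) : psi c s cl ζ ∈ N h := by
  have h1 := mem_closure_image (an_psi T hζ).cont (sub_closure (isOpen_Vc s cl) null_gen hζ)
  refine closure_minimal ?_ isClosed_closure h1
  rintro _ ⟨x, hx, rfl⟩
  rw [psi_gen T hx.2]
  exact beta_mem c (by rw [T.base]; exact hx.2.2.2.2)

theorem N_psi [Finite E] [Finite L] (T : Th c s) (cl : Cell) :
    N h = closure (psi c s cl '' Vc s cl) := by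
  refine Subset.antisymm ?_ (closure_minimal ?_ isClosed_closure)
  · let G : Set (Fin 8 → ℂ) := {b | ∀ j,
      b j ∉ ({(D0.ct 1 - D0.ct 2) / (D0.ct 1 - D0.ct 0), D0.M 0} : Set ℂ)}
    have h1 : volume (c.base \ G) = 0 := by
      refine measure_mono_null (fun b hb => ?_) (measure_iUnion_null fun j =>
        TD.null_coord ((toFinite ({(D0.ct 1 - D0.ct 2) / (D0.ct 1 - D0.ct 0), D0.M 0} :
          Set ℂ)).measure_zero _) j)
      have := hb.2
      simp only [G, mem_setOf_eq, not_forall, not_not] at this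
      exact mem_iUnion.2 this
    rw [N_eq' c inter_subset_left (sub_closure (isOpen_base c) h1)]
    refine closure_mono ?_
    rintro _ ⟨b, hb, rfl⟩
    obtain ⟨ζ, h2, rfl⟩ := exists_gen cl (T.base ▸ hb.1) hb.2
    exact ⟨ζ, gen_Vc h2, psi_gen T h2⟩
  · rintro _ ⟨ζ, hζ, rfl⟩
    exact psi_mem T hζ

/-- The matrix of the cross ratio of a coordinate. -/
def BB (cl : Cell) (j : Fin 8) : Matrix (Fin 2) (Fin 2) ℂ :=
  T3 (p3 (kk cl j + 1)) (p3 (kk cl j + 2)) (p3 (kk cl j)) * Bm cl j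

theorem fin3_ne (k : Fin 3) : k + 2 ≠ k ∧ k + 2 ≠ k + 1 ∧ k + 1 ≠ k := by revert k; decide

theorem det_BB (j : Fin 8) : (BB cl j).det ≠ 0 := by
  rw [BB, Matrix.det_mul]
  exact mul_ne_zero (det_T3 (br_p3 (fin3_ne _).1) (br_p3 (fin3_ne _).2.1) (br_p3 (fin3_ne _).2.2))
    (det_Bm cl j)

theorem psi_qd (ζ : Fin 8 → ℂ) (j : Fin 8) :
    psi c s cl ζ (qd c (kk cl j) j) = proj (act (BB cl j) (et s cl ζ j, 1)) := by
  have hz : ¬ Zoom c s cl (qd c (kk cl j) j) := by
    rintro ⟨-, hz⟩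
    obtain ⟨i, e⟩ := hz true
    obtain ⟨i', e'⟩ := hz false
    rw [lab_qd] at e e'
    exact absurd (cf_inj ((lq_inr e).trans (lq_inr e').symm)) (by decide)
  rw [psi, BB, ← act_act, act_T3]
  simp only [CR, WQ, if_neg hz, lab_qd]
  rfl

theorem BB_ne {ζ : Fin 8 → ℂ} (hζ : ζ ∈ Vc s cl) (j : Fin 8) :
    (act (BB cl j) (et s cl ζ j, 1)).2 ≠ 0 := by
  rw [BB, ← act_act, act_T3]
  exact mul_ne_zero (W0_kk hζ j) (br_p3 (fin3_ne _).2.1)

/-- The labels of the quadruple of the zoom. -/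
def lz (cl : Cell) : Fin 4 → Fin 3 ⊕ Fin 8 :=
  ![inl (nk cl), inr (cf cl.ord), inl (nk cl + 1), inr (cf (!cl.ord))]

theorem lz_inj (cl : Cell) : Function.Injective (lz cl) := by
  unfold lz
  generalize nk cl = k
  generalize cl.ord = o
  revert k o
  decide

theorem lz_vx (T : Th c s) (hs : s = true) (i : Fin 4) (j : Fin 8) (e : lz cl i = inr j) :
    vx c j = vx c 6 := by
  have h1 : ∀ b, vx c (cf b) = vx c 6 := fun b => by
    cases b
    · exact (T.same hs).symm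
    · rfl
  fin_cases i
  · exact absurd e (by simp [lz])
  · rw [← inr.inj e]; exact h1 _
  · exact absurd e (by simp [lz])
  · rw [← inr.inj e]; exact h1 _

theorem psi_lz (T : Th c s) (hs : cl.Same s) (ζ : Fin 8 → ℂ) :
    psi c s cl ζ (mkQ c (vx c 6) (lz cl) (lz_inj cl) (lz_vx T hs.1)) =
      proj (ζ (cf (!cl.ord)) * (D0.ρ * et s cl ζ (cf cl.ord) - (D0.ct (nk cl + 1) - D0.ct (nk cl))),
        D0.ρ * et s cl ζ (cf (!cl.ord)) - (D0.ct (nk cl + 1) - D0.ct (nk cl))) := by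
  have hz : Zoom c s cl (mkQ c (vx c 6) (lz cl) (lz_inj cl) (lz_vx T hs.1)) := by
    refine ⟨hs, fun b => ?_⟩
    rw [lab_mkQ]
    rcases bool_cases cl.ord b with rfl | rfl
    · exact ⟨1, rfl⟩
    · exact ⟨3, rfl⟩
  rw [psi]
  simp only [CR, WQ, if_pos hz, lab_mkQ]
  change proj (br (W1 cl ζ (inr (cf (!cl.ord)))) (W1 cl ζ (inl (nk cl))) *
    br (W1 cl ζ (inr (cf cl.ord))) (W1 cl ζ (inl (nk cl + 1))),
    br (W1 cl ζ (inr (cf (!cl.ord)))) (W1 cl ζ (inl (nk cl + 1))) *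
    br (W1 cl ζ (inr (cf cl.ord))) (W1 cl ζ (inl (nk cl)))) = _
  rw [W1_snd, W1_nk, W1_fst, W1_inl ζ (succ_ne _), et_fst, et_snd hs]
  congr 1
  refine Prod.ext ?_ ?_ <;> simp only [br] <;> ring

/-- **The chart of a cell.** -/
theorem cell_chart [Finite E] [Finite L] (T : Th c s) (cl : Cell) (hne : (Vc s cl).Nonempty) :
    ∃ e : OpenPartialHomeomorph (N h) (Fin 8 → ℂ), HolCh e ∧ e.target = Vc s cl ∧
      ∀ ζ ∈ Vc s cl, (e.symm ζ).1 = psi c s cl ζ := by
  have hp : ∀ (o : Option (Fin 8)) (t : Option (Fin 8) → ℂ),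
      AnalyticAt ℂ (fun t : Option (Fin 8) → ℂ => t o) t := fun o t =>
    (ContinuousLinearMap.proj o : (Option (Fin 8) → ℂ) →L[ℂ] ℂ).analyticAt t
  by_cases hs : cl.Same s
  · let d : ℂ := D0.ct (nk cl + 1) - D0.ct (nk cl)
    let qs : Option (Fin 8) → Quad h := fun o =>
      o.elim (mkQ c (vx c 6) (lz cl) (lz_inj cl) (lz_vx T hs.1)) fun j => qd c (kk cl j) j
    have h1 : ∀ ζ ∈ Vc s cl, ∀ j, AnalyticAt ℂ (mi (BB cl j)) (toC (psi c s cl ζ (qs (some j)))) ∧
        mi (BB cl j) (toC (psi c s cl ζ (qs (some j)))) = et s cl ζ j := fun ζ hζ j => by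
      change AnalyticAt ℂ _ (toC (psi c s cl ζ (qd c (kk cl j) j))) ∧
        mi _ (toC (psi c s cl ζ (qd c (kk cl j) j))) = _
      rw [psi_qd]
      exact mi_spec (det_BB j) (BB_ne hζ j)
    have h2 : ∀ ζ ∈ Vc s cl, ∀ b, D0.ρ * et s cl ζ (cf b) - d ≠ 0 := fun ζ hζ b =>
      Vc_same hs hζ b (succ_ne _)
    refine exists_chart (isOpen_Vc s cl) hne (fun _ => an_psi T) (N_psi T cl) qs
      (fun t j => if j = cf (!cl.ord) then t none * (D0.ρ * mi (BB cl j) (t (some j)) - d) /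
        (D0.ρ * mi (BB cl (cf cl.ord)) (t (some (cf cl.ord))) - d) else mi (BB cl j) (t (some j)))
      (fun ζ hζ o => ?_) (fun ζ hζ => analyticAt_pi_iff.2 fun j => ?_)
      fun ζ hζ => funext fun j => ?_
    · rcases o with _ | j
      · change psi c s cl ζ (mkQ c (vx c 6) (lz cl) (lz_inj cl) (lz_vx T hs.1)) ≠ _
        rw [psi_lz T hs]
        exact proj_ne.2 (h2 ζ hζ _)
      · change psi c s cl ζ (qd ..) ≠ _
        rw [psi_qd]
        exact proj_ne.2 (BB_ne hζ j)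
    · have h3 : ∀ j, AnalyticAt ℂ (fun t : Option (Fin 8) → ℂ => mi (BB cl j) (t (some j)))
          fun o => toC (psi c s cl ζ (qs o)) := fun j =>
        AnalyticAt.comp (g := mi (BB cl j)) (f := fun t : Option (Fin 8) → ℂ => t (some j))
          (x := fun o => toC (psi c s cl ζ (qs o))) (h1 ζ hζ j).1 (hp _ _)
      split_ifs
      · refine ((hp _ _).mul ((analyticAt_const.mul (h3 _)).sub analyticAt_const)).div
          ((analyticAt_const.mul (h3 _)).sub analyticAt_const) ?_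
        change D0.ρ * mi _ (toC (psi c s cl ζ (qs (some _)))) - d ≠ 0
        rw [(h1 ζ hζ _).2]
        exact h2 ζ hζ _
      · exact h3 j
    · simp only [(h1 ζ hζ _).2]
      split_ifs with hj
      · subst hj
        change toC (psi c s cl ζ (mkQ c (vx c 6) (lz cl) (lz_inj cl) (lz_vx T hs.1))) * _ / _ = _
        rw [psi_lz T hs, toC_proj (h2 ζ hζ _)]
        simp only
        rw [div_mul_cancel₀ _ (h2 ζ hζ _), mul_div_cancel_right₀ _ (h2 ζ hζ _)]
      · exact if_neg fun h => hj h.2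
  · have h1 : ∀ ζ ∈ Vc s cl, ∀ j,
        AnalyticAt ℂ (mi (BB cl j)) (toC (psi c s cl ζ (qd c (kk cl j) j))) ∧
        mi (BB cl j) (toC (psi c s cl ζ (qd c (kk cl j) j))) = et s cl ζ j := fun ζ hζ j => by
      rw [psi_qd]
      exact mi_spec (det_BB j) (BB_ne hζ j)
    refine exists_chart (isOpen_Vc s cl) hne (fun _ => an_psi T) (N_psi T cl)
      (fun j => qd c (kk cl j) j) (fun t j => mi (BB cl j) (t j))
      (fun ζ hζ j => ?_) (fun ζ hζ => analyticAt_pi_iff.2 fun j => ?_)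
      fun ζ hζ => funext fun j => ?_
    · rw [psi_qd]
      exact proj_ne.2 (BB_ne hζ j)
    · exact AnalyticAt.comp (g := mi (BB cl j)) (f := fun t : Fin 8 → ℂ => t j)
        (x := fun j => toC (psi c s cl ζ (qd c (kk cl j) j))) (h1 ζ hζ j).1 (TD.an_proj _ _)
    · exact (h1 ζ hζ j).2.trans (if_neg fun h => hs h.1)

end Vale.Agent.P273SN

end
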