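import Vale.Agent.P273SN.Chart
import Vale.Agent.P273SZ.NFull

/-!
# P273S, block N: the covering by the cells, the smooth map to the space of the wall
-/

set_option linter.all false

noncomputable section

namespace Vale.Agent.P273SN

open Set Sum Filter Topology MeasureTheory Vale.Agent.P273 H837 H728
open H93 hiding Cell
open P273SZ (Quad cr N)
open H720 (Kc cz)
open scoped ContDiff

theorem th_coordE (e : Bool → Bool) (p q : Fin 7) (hp : p ≤ q) (σ : Bool → Equiv.Perm (Fin 7)) :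
    Th (coordE e p q hp σ) (sm e) := by
  have key : ∀ j : Fin 8, (j.1 < 6 ∧ ∃ t : Fin 7, t ≠ 6 ∧ j.1 = t.1 ∧
      vx (coordE e p q hp σ) j = some t) ∨ ∃ b, j = cf b ∧
      vx (coordE e p q hp σ) j = if e b then some 6 else none := by
    intro j
    obtain ⟨y, hy, -⟩ := (coordE e p q hp σ).coord j
    rw [vx_eq _ hy]
    obtain ⟨i, b, rfl, h1 | h1⟩ := cc_inr (show cc p q σ y = inr j from hy)
    · refine Or.inr ⟨b, h1.2, ?_⟩
      change lg e b (σ b i) = _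
      rw [h1.1, lg_six]
    · have h2 : (σ b i).1 ≠ 6 := fun h => h1.1 (Fin.ext h)
      have h3 := (σ b i).2
      exact Or.inl ⟨by omega, σ b i, h1.1, h1.2.2, lg_ne e b _ h1.1⟩
  refine ⟨?_, fun j j' hj hv => ?_, fun hs => ?_⟩
  · rw [base_coordE]
    ext b
    simp only [baseE, bs, sm, decide_eq_true_eq, mem_setOf_eq]
  · rcases key j with ⟨-, t, h1, h2, h3⟩ | ⟨b, rfl, h3⟩ <;>
      rcases key j' with ⟨-, t', h1', h2', h3'⟩ | ⟨b', rfl, h3'⟩ <;> rw [h3, h3'] at hv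
    · exact absurd (Fin.ext (by rw [h2, h2', Option.some.inj hv])) hj
    · split_ifs at hv
      exact absurd (Option.some.inj hv) h1
    · split_ifs at hv
      exact absurd (Option.some.inj hv).symm h1'
    · refine ⟨?_, cf_ge b, cf_ge b'⟩
      have h4 : b ≠ b' := fun h => hj (by rw [h])
      have h5 : e b = e b' := by
        cases h6 : e b <;> cases h7 : e b' <;> simp_all
      rw [sm, decide_eq_true_eq]
      cases b <;> cases b' <;> simp_all
  · rw [sm, decide_eq_true_eq] at hs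
    rcases key 6 with ⟨h, -⟩ | ⟨b, h1, h2⟩
    · exact absurd h (by decide)
    rcases key 7 with ⟨h, -⟩ | ⟨b', h1', h2'⟩
    · exact absurd h (by decide)
    have h3 : e b = e b' := by cases b <;> cases b' <;> simp_all
    rw [h2, h2', h3]

variable {s : Bool} {cl : Cell}

theorem Kc_et {ζ : Fin 8 → ℂ} (h : ζ ∈ Kc cl) (b : Bool) : et s cl ζ (cf b) ∈ cz (cl.loc b) := by
  unfold et
  split_ifs with h1
  · have h2 := H720.Kc_cf h cl.ord
    have h3 := H720.Kc_cf h b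
    rw [same_loc h1.1] at h2 h3 ⊢
    change _ ∈ Metric.closedBall (0 : ℂ) 1 at h2 h3 ⊢
    rw [mem_closedBall_zero_iff] at h2 h3 ⊢
    rw [norm_mul]
    exact mul_le_one₀ h2 (norm_nonneg _) h3
  · exact H720.Kc_cf h b

theorem Kc_Vc {ζ : Fin 8 → ℂ} (h : ζ ∈ Kc cl) : ζ ∈ Vc s cl := by
  intro b i hi e
  have h1 := Kc_et (s := s) h b
  unfold Xh at e
  generalize et s cl ζ (cf b) = η at e h1
  generalize cl.loc b = l at hi e h1
  rcases l with (_ | _) | k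
  · rw [plh, act_one] at e
    have h2 : (1 / 32 : ℝ) ≤ ‖η - D0.ct i‖ := mem_iInter.1 h1.2 i
    have h3 : η - D0.ct i = 0 := by simpa [br] using e
    rw [h3, norm_zero] at h2
    linarith
  · rw [plh, act_sw] at e
    change η ∈ Metric.closedBall (0 : ℂ) D0.R⁻¹ at h1
    rw [mem_closedBall_zero_iff] at h1
    have h3 : η * D0.ct i = 1 := by
      simp only [br] at e
      linear_combination -e
    have h4 : ‖D0.ct i‖ < D0.R := by linarith [D0.big i, D0.pos]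
    have h5 : ‖η‖ * ‖D0.ct i‖ < D0.R⁻¹ * D0.R :=
      lt_of_le_of_lt (mul_le_mul_of_nonneg_right h1 (norm_nonneg _))
        (mul_lt_mul_of_pos_left h4 (inv_pos.2 D0.R_pos))
    rw [← norm_mul, h3, norm_one, inv_mul_cancel₀ D0.R_pos.ne'] at h5
    exact lt_irrefl _ h5
  · rw [plh, act_af] at e
    change η ∈ Metric.closedBall (0 : ℂ) 1 at h1
    rw [mem_closedBall_zero_iff] at h1
    have h2 := D0.sep i k fun h => hi (by rw [h])
    have h3 : D0.ct i - D0.ct k = D0.ρ * η := by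
      simp only [br] at e
      linear_combination -e
    rw [h3, norm_mul, Complex.norm_real, Real.norm_of_nonneg D0.pos.le] at h2
    nlinarith [D0.pos]

section

variable {L V E : Type} [Finite E] [Finite L] {h : (E × Bool) ⊕ L → V} {c : Coord h 8}

theorem psi_om (T : Th c s) {ζ : Fin 8 → ℂ} (hζ : ζ ∈ D0.Om s cl) :
    psi c s cl ζ = beta c (D0.kap s cl ζ) := by
  have h0 : ∀ x ∈ D0.Om s cl, x ∈ Vc s cl := fun x hx => Kc_Vc (H720.Om_subset_Kc s hx)
  have h1 : ζ ∈ closure (D0.Om s cl ∩ Gen s cl) := sub_closure TD.isOpen_Om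
    (measure_mono_null (diff_subset_diff_left h0) null_gen) hζ
  have h2 : (𝓝[D0.Om s cl ∩ Gen s cl] ζ).NeBot := mem_closure_iff_nhdsWithin_neBot.1 h1
  have h3 : ContinuousAt (fun x => beta c (D0.kap s cl x)) ζ :=
    (an_beta c (by rw [T.base]; exact TD.kap_mem hζ)).cont.comp (TD.kap_diff hζ).continuousAt
  refine tendsto_nhds_unique (l := 𝓝[D0.Om s cl ∩ Gen s cl] ζ)
    ((an_psi T (h0 ζ hζ)).cont.tendsto.mono_left nhdsWithin_le_nhds)
    ((h3.tendsto.mono_left nhdsWithin_le_nhds).congr' ?_)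
  filter_upwards [self_mem_nhdsWithin] with x hx
  exact (psi_gen T hx.2).symm

/-- **The closed cells cover `N h`.** -/
theorem cover (T : Th c s) (x : N h) : ∃ cl : Cell, ∃ ζ ∈ Kc cl, psi c s cl ζ = x.1 := by
  have h1 : IsClosed (⋃ cl : Cell, psi c s cl '' Kc cl) :=
    isClosed_iUnion_of_finite fun cl => ((H720.isCompact_Kc cl).image_of_continuousOn
      fun ζ hζ => (an_psi T (Kc_Vc hζ)).cont.continuousWithinAt).isClosed
  have h2 : N h ⊆ ⋃ cl : Cell, psi c s cl '' Kc cl := by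
    rw [N_eq' c inter_subset_left (sub_closure (G := (D0.Ex)ᶜ) (isOpen_base c)
      (measure_mono_null (fun b hb => not_not.1 hb.2) TD.null_Ex))]
    refine closure_minimal ?_ h1
    rintro _ ⟨b, hb, rfl⟩
    obtain ⟨cl, -, ζ, hζ, rfl⟩ := TD.cover s (T.base ▸ hb.1) hb.2
    exact mem_iUnion.2 ⟨cl, ζ, H720.Om_subset_Kc s hζ, psi_om T hζ⟩
  obtain ⟨cl, ζ, h3, h4⟩ := mem_iUnion.1 (h2 x.2)
  exact ⟨cl, ζ, h3, h4⟩

theorem Vc_ne (T : Th c s) (cl : Cell) : (Vc s cl).Nonempty := by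
  have h1 : (fun j : Fin 8 => ((j.1 + 2 : ℕ) : ℂ)) ∈ c.base := by
    rw [T.base]
    refine ⟨fun j => ⟨?_, ?_⟩, fun _ => ?_⟩
    · exact Nat.cast_ne_zero.2 (by omega)
    · exact Nat.cast_ne_one.2 (by omega)
    · exact fun e => absurd (Nat.cast_injective e) (by decide)
  have h2 := beta_mem c h1
  rw [N_psi T cl] at h2
  exact (closure_nonempty_iff.1 ⟨_, h2⟩).of_image

theorem dense_gen (T : Th c s) : Dense {x : N h | ∃ b, ∀ cl : Cell, ∃ ζ ∈ Gen s cl,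
    D0.kap s cl ζ = b ∧ psi c s cl ζ = x.1} := by
  let G : Set (Fin 8 → ℂ) := {b | ∀ j,
    b j ∉ ({(D0.ct 1 - D0.ct 2) / (D0.ct 1 - D0.ct 0), D0.M 0} : Set ℂ)}
  have h1 : volume (c.base \ G) = 0 := by
    refine measure_mono_null (fun b hb => ?_) (measure_iUnion_null fun j =>
      TD.null_coord ((toFinite ({(D0.ct 1 - D0.ct 2) / (D0.ct 1 - D0.ct 0), D0.M 0} :
        Set ℂ)).measure_zero _) j)
    have := hb.2
    simp only [G, mem_setOf_eq, not_forall, not_not] at this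
    exact mem_iUnion.2 this
  rw [Subtype.dense_iff]
  refine (N_eq' c inter_subset_left (sub_closure (isOpen_base c) h1)).subset.trans
    (closure_mono ?_)
  rintro _ ⟨b, hb, rfl⟩
  refine ⟨⟨_, beta_mem c hb.1⟩, ⟨b, fun cl => ?_⟩, rfl⟩
  obtain ⟨ζ, h2, rfl⟩ := exists_gen cl (T.base ▸ hb.1) hb.2
  exact ⟨ζ, h2, rfl, psi_gen T h2⟩

/-- **Gluing** of smooth maps on the cells. -/
theorem glue (T : Th c s) {A : Type} [NormedAddCommGroup A] [NormedSpace ℝ A] {W : Set A}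
    {O : Cell → Set (Fin 8 → ℂ)} {g : Cell → (Fin 8 → ℂ) → A} (hO : ∀ cl, IsOpen (O cl))
    (hK : ∀ cl, Kc cl ⊆ O cl) (hg : ∀ cl, ∀ ζ ∈ O cl, ContDiffAt ℝ ∞ (g cl) ζ)
    (hW : ∀ cl, ∀ ζ ∈ O cl, g cl ζ ∈ W)
    (hov : ∀ cl cl' ζ ζ', ζ ∈ Gen s cl → ζ' ∈ Gen s cl' → ζ ∈ O cl → ζ' ∈ O cl' →
      D0.kap s cl ζ = D0.kap s cl' ζ' → g cl ζ = g cl' ζ') :
    ∃ f : C(N h, W), P273SA.SmC (atl (N h) 8) (fun x => (f x : A)) ∧
      ∀ cl, ∀ ζ ∈ Kc cl, ∀ x : N h, x.1 = psi c s cl ζ → (f x : A) = g cl ζ := by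
  choose k hk ht hs using fun cl => cell_chart T cl (Vc_ne T cl)
  have hk1 : ∀ cl, ∀ ζ ∈ Vc s cl, ∀ x : N h, psi c s cl ζ = x.1 →
      x ∈ (k cl).source ∧ k cl x = ζ := by
    intro cl ζ hζ x e
    have e1 : x = (k cl).symm ζ := Subtype.ext (e.symm.trans (hs cl ζ hζ).symm)
    rw [e1]
    exact ⟨(k cl).map_target (by rw [ht]; exact hζ), (k cl).right_inv (by rw [ht]; exact hζ)⟩
  let S : Cell → Set (N h) := fun cl => (k cl).source ∩ k cl ⁻¹' O cl
  have hS : ∀ cl, IsOpen (S cl) := fun cl => (k cl).isOpen_inter_preimage (hO cl)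
  have hc : ∀ cl, ∀ x ∈ S cl, ContinuousAt (fun x => g cl (k cl x)) x := fun cl x hx =>
    (hg cl _ hx.2).continuousAt.comp ((k cl).continuousAt hx.1)
  have heq : ∀ cl cl', ∀ x ∈ S cl, x ∈ S cl' → g cl (k cl x) = g cl' (k cl' x) := by
    intro cl cl' x hx hx'
    have h1 := (dense_gen T).open_subset_closure_inter ((hS cl).inter (hS cl')) ⟨hx, hx'⟩
    have h2 := mem_closure_iff_nhdsWithin_neBot.1 h1
    refine tendsto_nhds_unique' h2 ((hc cl x hx).tendsto.mono_left nhdsWithin_le_nhds)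
      (((hc cl' x hx').tendsto.mono_left nhdsWithin_le_nhds).congr' ?_)
    filter_upwards [self_mem_nhdsWithin] with y hy
    obtain ⟨⟨a1, a2⟩, b, hb⟩ := hy
    obtain ⟨ζ, b1, b2, b3⟩ := hb cl
    obtain ⟨ζ', c1, c2, c3⟩ := hb cl'
    have d1 := (hk1 cl ζ (gen_Vc b1) y b3).2
    have d2 := (hk1 cl' ζ' (gen_Vc c1) y c3).2
    rw [d1, d2]
    exact (hov cl cl' ζ ζ' b1 c1 (d1 ▸ a1.2) (d2 ▸ a2.2) (b2.trans c2.symm)).symm
  have hmem : ∀ cl, ∀ ζ ∈ Kc cl, ∀ x : N h, psi c s cl ζ = x.1 → x ∈ S cl ∧ k cl x = ζ := by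
    intro cl ζ hζ x e
    obtain ⟨a1, a2⟩ := hk1 cl ζ (Kc_Vc hζ) x e
    exact ⟨⟨a1, by change k cl x ∈ O cl; rw [a2]; exact hK cl hζ⟩, a2⟩
  have hcov : ∀ x, ∃ cl, x ∈ S cl := fun x => by
    obtain ⟨cl, ζ, hζ, e⟩ := cover T x
    exact ⟨cl, (hmem cl ζ hζ x e).1⟩
  choose ch hch using hcov
  let f : N h → A := fun x => g (ch x) (k (ch x) x)
  have hf : ∀ cl, ∀ x ∈ S cl, f =ᶠ[𝓝 x] fun y => g cl (k cl y) := fun cl x hx => by
    filter_upwards [(hS cl).mem_nhds hx] with y hy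
    exact heq _ _ y (hch y) hy
  refine ⟨⟨fun x => ⟨f x, hW _ _ (hch x).2⟩, Continuous.subtype_mk (continuous_iff_continuousAt.2
    fun x => (hc _ x (hch x)).congr (hf _ x (hch x)).symm) _⟩, fun e he y hy => ?_,
    fun cl ζ hζ x e => ?_⟩
  · refine ContDiffAt.contDiffWithinAt ?_
    have hx := hch (e.symm y)
    have h2 : AnalyticAt ℂ (fun z => k (ch (e.symm y)) (e.symm z)) y :=
      (hk _).dir e.symm y hx.1 (HolCh.inv he y hy)
    have h3 : ContDiffAt ℝ ∞ (fun z => g (ch (e.symm y)) (k (ch (e.symm y)) (e.symm z))) y :=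
      ContDiffAt.comp (g := g (ch (e.symm y))) y (hg _ _ hx.2)
        (h2.restrictScalars (𝕜 := ℝ)).contDiffAt
    exact h3.congr_of_eventuallyEq ((e.continuousAt_symm hy).eventually (hf _ _ hx))
  · obtain ⟨a1, a2⟩ := hmem cl ζ hζ x e.symm
    exact (hf cl x a1).self_of_nhds.trans (congrArg _ a2)

theorem cover_atl (T : Th c s) (x : N h) : ∃ k ∈ atl (N h) 8, x ∈ k.source := by
  obtain ⟨cl, ζ, hζ, e⟩ := cover T x
  obtain ⟨k, hk, ht, hs⟩ := cell_chart T cl (Vc_ne T cl)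
  have e1 : x = k.symm ζ := Subtype.ext (e.symm.trans (hs ζ (Kc_Vc hζ)).symm)
  exact ⟨k, hk, e1 ▸ k.map_target (by rw [ht]; exact Kc_Vc hζ)⟩

end

/-- **NA** -/
theorem na : P273SZ.NA fun h => atl (N h) 8 :=
  P273SZ.na_of_cover fun p q hp σ e x => cover_atl (th_coordE e p q hp σ) x

/-- **EHAT** -/
theorem ehat (hR : P273SW.PR) (hO : OVL) : P273SZ.EHAT fun h => atl (N h) 8 := by
  intro p q hp hq σ e
  have hpc : ∀ cl, ContDiff ℝ ∞ (pc hp hq σ e cl) := fun cl =>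
    ((H732.scl (rg (Tc hp hq σ e cl))).comp (ior hp hq σ e cl)).contDiff
  have hE := fun cl => hR _ _ (H720.farOk hp hq σ e cl)
  obtain ⟨f, h1, h2⟩ := glue (th_coordE e p q hp σ) (W := P273SW.WW)
    (O := fun cl => pc hp hq σ e cl ⁻¹' (rg (Tc hp hq σ e cl)).dom (Sc σ cl))
    (g := ec hp hq σ e) (fun cl => (hE cl).1.opn.preimage (hpc cl).continuous)
    (fun cl ζ hζ => H720.iot_dom hp hq σ e hζ)
    (fun cl ζ hζ => ((hE cl).1.sm.contDiffAt ((hE cl).1.opn.mem_nhds hζ)).comp ζ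
      (hpc cl).contDiffAt) (fun cl ζ hζ => (hE cl).2 hζ) (hO p q hp hq σ e)
  exact ⟨f, h1, fun cl _ ζ hζ x hx => h2 cl ζ (H720.Om_subset_Kc _ hζ) x
    (hx.trans (psi_om (th_coordE e p q hp σ) hζ).symm)⟩

/-- **NB** -/
theorem nb (hR : P273SW.PR) (hO : OVL) : P273SZ.NB := ⟨_, na, ehat hR hO⟩

end Vale.Agent.P273SN

end
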