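import Vale.Agent.P273SA.Defs
import Vale.Agent.P273.H837.Mob

/-!
# P273S, block N: holomorphic charts on subsets of products of projective lines
-/

set_option linter.all false

noncomputable section

namespace Vale.Agent.P273SN

open Set Filter Topology Vale.Agent.P273 H837

/-- The affine coordinate. -/
def toC (z : OnePoint ℂ) : ℂ := z.elim 0 id

@[simp] theorem toC_coe (w : ℂ) : toC (w : OnePoint ℂ) = w := rfl

theorem coe_toC {z : OnePoint ℂ} (h : z ≠ OnePoint.infty) : ((toC z : ℂ) : OnePoint ℂ) = z := by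
  induction z using OnePoint.rec with
  | infty => exact absurd rfl h
  | coe w => rfl

theorem toC_cont {z : OnePoint ℂ} (h : z ≠ OnePoint.infty) : ContinuousAt toC z := by
  induction z using OnePoint.rec with
  | infty => exact absurd rfl h
  | coe w =>
    rw [OnePoint.continuousAt_coe]
    exact continuousAt_id

theorem isOpen_fin : IsOpen {z : OnePoint ℂ | z ≠ OnePoint.infty} := isOpen_ne

theorem toC_proj {u : ℂ × ℂ} (h : u.2 ≠ 0) : toC (proj u) = u.1 / u.2 := by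
  simp [proj, h]

theorem proj_ne {u : ℂ × ℂ} : proj u ≠ OnePoint.infty ↔ u.2 ≠ 0 := proj_eq_infty.not

variable {Q : Type} {m : ℕ}

/-- A holomorphic map to a product of projective lines: it is continuous and the finite
coordinates are analytic. -/
structure An (ψ : (Fin m → ℂ) → Q → OnePoint ℂ) (ζ : Fin m → ℂ) : Prop where
  cont : ContinuousAt ψ ζ
  an : ∀ q, ψ ζ q ≠ OnePoint.infty → AnalyticAt ℂ (fun ζ' => toC (ψ ζ' q)) ζ

theorem An.congr {ψ ψ' : (Fin m → ℂ) → Q → OnePoint ℂ} {ζ : Fin m → ℂ} (h : An ψ ζ)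
    (e : ψ =ᶠ[𝓝 ζ] ψ') : An ψ' ζ := by
  refine ⟨h.cont.congr e, fun q hq => (h.an q (by rw [e.self_of_nhds]; exact hq)).congr ?_⟩
  filter_upwards [e] with x hx
  rw [hx]

theorem An.comp {m' : ℕ} {ψ : (Fin m → ℂ) → Q → OnePoint ℂ} {f : (Fin m' → ℂ) → Fin m → ℂ}
    {ζ : Fin m' → ℂ} (h : An ψ (f ζ)) (hf : AnalyticAt ℂ f ζ) : An (fun x => ψ (f x)) ζ :=
  ⟨h.cont.comp hf.continuousAt, fun q hq => (h.an q hq).comp hf⟩

/-- Homogeneous coordinates give holomorphic maps. -/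
theorem an_proj {u : (Fin m → ℂ) → Q → ℂ × ℂ} {ζ : Fin m → ℂ}
    (hu : ∀ q, AnalyticAt ℂ (fun x => u x q) ζ) (h0 : ∀ q, u ζ q ≠ 0) :
    An (fun x q => proj (u x q)) ζ := by
  refine ⟨continuousAt_pi.2 fun q => (continuousAt_proj (h0 q)).comp
    (f := fun x => u x q) (hu q).continuousAt, fun q hq => ?_⟩
  have h2 : (u ζ q).2 ≠ 0 := proj_ne.1 hq
  have a1 : AnalyticAt ℂ (fun x => (u x q).1) ζ := analyticAt_fst.comp (hu q)
  have a2 : AnalyticAt ℂ (fun x => (u x q).2) ζ := analyticAt_snd.comp (hu q)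
  refine (a1.div a2 h2).congr ?_
  filter_upwards [a2.continuousAt.eventually_ne h2] with x hx
  rw [toC_proj hx]
  rfl

variable {N : Set (Q → OnePoint ℂ)}

/-- A holomorphic chart. -/
structure HolCh (e : OpenPartialHomeomorph N (Fin m → ℂ)) : Prop where
  inv : ∀ ζ ∈ e.target, An (fun x => (e.symm x).1) ζ
  dir : ∀ (ψ : (Fin m → ℂ) → N) ζ, ψ ζ ∈ e.source → An (fun x => (ψ x).1) ζ →
    AnalyticAt ℂ (fun x => e (ψ x)) ζ

/-- The atlas of all holomorphic charts. -/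
def atl (N : Set (Q → OnePoint ℂ)) (m : ℕ) : Set (OpenPartialHomeomorph N (Fin m → ℂ)) :=
  {e | HolCh e}

theorem HolCh.trans {e e' : OpenPartialHomeomorph N (Fin m → ℂ)} (h : HolCh e) (h' : HolCh e')
    {x : N} (hx : x ∈ e.source) (hx' : x ∈ e'.source) :
    AnalyticAt ℂ (fun y => e' (e.symm y)) (e x) :=
  h'.dir e.symm (e x) (by rw [e.left_inv hx]; exact hx') (h.inv _ (e.map_source hx))

theorem catl (hc : ∀ x : N, ∃ e ∈ atl N m, x ∈ e.source) : P273SA.CAtl (atl N m) :=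
  ⟨hc, fun _ he _ he' _ hx hx' => HolCh.trans he he' hx hx'⟩

/-- The data of a chart. -/
structure ChD (D : Set (Q → OnePoint ℂ)) (U : Set (Q → OnePoint ℂ)) (V : Set (Fin m → ℂ))
    (ψ : (Fin m → ℂ) → Q → OnePoint ℂ) (lam : (Q → OnePoint ℂ) → Fin m → ℂ) : Prop where
  oU : IsOpen U
  oV : IsOpen V
  an : ∀ ζ ∈ V, An ψ ζ
  mem : ∀ ζ ∈ V, ψ ζ ∈ closure D
  memU : ∀ ζ ∈ V, ψ ζ ∈ U
  cont : ContinuousOn lam U
  dir : ∀ (φ : (Fin m → ℂ) → Q → OnePoint ℂ) ζ, φ ζ ∈ U → An φ ζ →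
    AnalyticAt ℂ (fun x => lam (φ x)) ζ
  left : ∀ ζ ∈ V, lam (ψ ζ) = ζ
  right : ∀ a ∈ D, a ∈ U → lam a ∈ V → ψ (lam a) = a

namespace ChD

variable {D U : Set (Q → OnePoint ℂ)} {V : Set (Fin m → ℂ)} {ψ : (Fin m → ℂ) → Q → OnePoint ℂ}
  {lam : (Q → OnePoint ℂ) → Fin m → ℂ}

theorem opn (H : ChD D U V ψ lam) : IsOpen (U ∩ lam ⁻¹' V) :=
  H.cont.isOpen_inter_preimage H.oU H.oV

theorem right' (H : ChD D U V ψ lam) {a : Q → OnePoint ℂ} (ha : a ∈ closure D) (hU : a ∈ U)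
    (hV : lam a ∈ V) : ψ (lam a) = a := by
  have h1 : a ∈ closure (U ∩ lam ⁻¹' V ∩ D) := H.opn.inter_closure ⟨⟨hU, hV⟩, ha⟩
  have h2 : ContinuousAt (fun a => ψ (lam a)) a :=
    (H.an _ hV).cont.comp (f := lam) (H.cont.continuousAt (H.oU.mem_nhds hU))
  have h3 : (𝓝[U ∩ lam ⁻¹' V ∩ D] a).NeBot := mem_closure_iff_nhdsWithin_neBot.1 h1
  refine tendsto_nhds_unique (h2.tendsto.mono_left nhdsWithin_le_nhds)
    (l := 𝓝[U ∩ lam ⁻¹' V ∩ D] a) ?_
  refine (tendsto_id.mono_left nhdsWithin_le_nhds).congr' ?_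
  filter_upwards [self_mem_nhdsWithin] with x hx
  exact (H.right x hx.2 hx.1.1 hx.1.2).symm

open Classical in
/-- The inverse map of the chart. -/
def inv (hN : N = closure D) (n₀ : N) (ψ : (Fin m → ℂ) → Q → OnePoint ℂ) (ζ : Fin m → ℂ) : N :=
  if h : ψ ζ ∈ N then ⟨ψ ζ, h⟩ else n₀

theorem inv_val (H : ChD D U V ψ lam) (hN : N = closure D) (n₀ : N) {ζ : Fin m → ℂ}
    (h : ζ ∈ V) : (inv hN n₀ ψ ζ).1 = ψ ζ := by
  have h1 : ψ ζ ∈ N := by rw [hN]; exact H.mem ζ h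
  rw [inv, dif_pos h1]

theorem inv_ev (H : ChD D U V ψ lam) (hN : N = closure D) (n₀ : N) {ζ : Fin m → ℂ}
    (h : ζ ∈ V) : ψ =ᶠ[𝓝 ζ] fun x => (inv hN n₀ ψ x).1 := by
  filter_upwards [H.oV.mem_nhds h] with x hx
  exact (H.inv_val hN n₀ hx).symm

/-- The chart. -/
def ch (H : ChD D U V ψ lam) (hN : N = closure D) (n₀ : N) :
    OpenPartialHomeomorph N (Fin m → ℂ) where
  toFun n := lam n.1
  invFun := inv hN n₀ ψ
  source := Subtype.val ⁻¹' (U ∩ lam ⁻¹' V)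
  target := V
  map_source' _ h := h.2
  map_target' ζ h := by
    change (inv hN n₀ ψ ζ).1 ∈ U ∩ lam ⁻¹' V
    rw [H.inv_val hN n₀ h]
    refine ⟨H.memU ζ h, ?_⟩
    change lam (ψ ζ) ∈ V
    rw [H.left ζ h]
    exact h
  left_inv' n h := by
    apply Subtype.ext
    rw [H.inv_val hN n₀ h.2]
    exact H.right' (hN ▸ n.2) h.1 h.2
  right_inv' ζ h := by
    rw [H.inv_val hN n₀ h]
    exact H.left ζ h
  open_source := H.opn.preimage continuous_subtype_val
  open_target := H.oV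
  continuousOn_toFun := (H.cont.comp continuous_subtype_val.continuousOn fun _ h => h.1)
  continuousOn_invFun := by
    intro ζ h
    refine ContinuousAt.continuousWithinAt ?_
    rw [Topology.IsInducing.subtypeVal.continuousAt_iff]
    exact (H.an ζ h).cont.congr (H.inv_ev hN n₀ h)

theorem ch_target (H : ChD D U V ψ lam) (hN : N = closure D) (n₀ : N) :
    (H.ch hN n₀).target = V := rfl

theorem ch_apply (H : ChD D U V ψ lam) (hN : N = closure D) (n₀ n : N) :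
    H.ch hN n₀ n = lam n.1 := rfl

theorem ch_source (H : ChD D U V ψ lam) (hN : N = closure D) (n₀ n : N) :
    n ∈ (H.ch hN n₀).source ↔ n.1 ∈ U ∧ lam n.1 ∈ V := Iff.rfl

theorem ch_symm (H : ChD D U V ψ lam) (hN : N = closure D) (n₀ : N) {ζ : Fin m → ℂ}
    (h : ζ ∈ V) : ((H.ch hN n₀).symm ζ).1 = ψ ζ := H.inv_val hN n₀ h

theorem ch_hol (H : ChD D U V ψ lam) (hN : N = closure D) (n₀ : N) : HolCh (H.ch hN n₀) :=
  ⟨fun ζ h => (H.an ζ h).congr (H.inv_ev hN n₀ h), fun φ ζ h ha => H.dir _ ζ h.1 ha⟩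

end ChD

/-! ### Reindexing -/

section

variable {Q' : Type} {N' : Set (Q' → OnePoint ℂ)}

/-- The homeomorphism of a bijection of the coordinates. -/
def reix (r : Q ≃ Q') (h : ∀ a : Q' → OnePoint ℂ, a ∈ N' ↔ (fun q => a (r q)) ∈ N) : N' ≃ₜ N where
  toFun a := ⟨fun q => a.1 (r q), (h _).1 a.2⟩
  invFun a := ⟨fun q => a.1 (r.symm q), (h _).2 (by simp)⟩
  left_inv a := by ext q; simp
  right_inv a := by ext q; simp
  continuous_toFun := by
    refine Continuous.subtype_mk (continuous_pi fun q => ?_) _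
    exact (continuous_apply _).comp continuous_subtype_val
  continuous_invFun := by
    refine Continuous.subtype_mk (continuous_pi fun q => ?_) _
    exact (continuous_apply _).comp continuous_subtype_val

theorem An.reix {ψ : (Fin m → ℂ) → Q' → OnePoint ℂ} {ζ : Fin m → ℂ} (h : An ψ ζ) (r : Q → Q') :
    An (fun x q => ψ x (r q)) ζ :=
  ⟨continuousAt_pi.2 fun q => continuousAt_pi.1 h.cont (r q), fun q hq => h.an (r q) hq⟩

/-- Holomorphic charts are carried to holomorphic charts. -/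
theorem HolCh.reix (r : Q ≃ Q') (h : ∀ a : Q' → OnePoint ℂ, a ∈ N' ↔ (fun q => a (r q)) ∈ N)
    {e : OpenPartialHomeomorph N (Fin m → ℂ)} (he : HolCh e) :
    HolCh ((P273SN.reix r h).transOpenPartialHomeomorph e) :=
  ⟨fun ζ hζ => (he.inv ζ hζ).reix r.symm,
    fun ψ ζ hζ ha => he.dir (fun x => P273SN.reix r h (ψ x)) ζ hζ (ha.reix r)⟩

end

end Vale.Agent.P273SN

end
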